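import Vale.Agent.P223Y.Defs
import Vale.Agent.P366M.Map2
import Vale.Agent.P210G.Defs

/-!
# P223Y: maps which are the identity in the preferred charts (translations, the projection)
-/

open MeasureTheory Filter Topology Set
open scoped ContDiff
open Vale.Agent.P366.Stmt (E)
open Vale.Agent.P366M Vale.Agent.P366D Vale.Agent.P210G Vale.Agent.P366M.Gr

noncomputable section

namespace Vale.Agent.P223Y

variable {n : ℕ} {Z M : Type} [Mf0 n Z] [Mf0 n M]

/-- `Φ` is the identity in the preferred charts -/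
def Cm (Φ : Z → M) : Prop := ∀ x y, (ch (Φ x)).symm y = Φ ((ch x).symm y)

namespace Cm

variable {Φ : Z → M} (h : Cm Φ) {g T : Fld n M} {u w : M → ℝ} {a b : Fin n → M → ℝ}
include h

theorem loc {α : Type} (f : M → α) (x : Z) : loc (ch x) (fun z => f (Φ z)) = loc (ch (Φ x)) f :=
  funext fun y => by rw [loc_apply, loc_apply, h]

theorem app (x : Z) {p : Z} (hp : p ∈ (ch x).source) : ch (Φ x) (Φ p) = ch x p := by
  conv_lhs => rw [← (ch x).left_inv hp, ← h, right_inv (ch_mem _)]

theorem src (x : Z) {p : Z} (hp : p ∈ (ch x).source) : Φ p ∈ (ch (Φ x)).source := by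
  rw [← (ch x).left_inv hp, ← h]
  exact symm_mem (ch_mem _) _

theorem pt (x : Z) : pt (Φ x) = pt x := h.app x (mem_ch x)

theorem cont : Continuous Φ := continuous_iff_continuousAt.2 fun x => contAt_of_loc <| by
  have : P366M.loc (ch x) Φ = (ch (Φ x)).symm := funext fun y => (h x y).symm
  rw [this]
  exact (cont_symm (ch_mem _)).continuousAt

theorem J (x : Z) (y : E n) : J (ch (Φ x)) y = J (ch x) y := by
  refine jac_congr ?_
  filter_upwards [ev_src (ch_mem x) (mem_ch ((ch x).symm y))] with z hz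
  simp only [tm, h x]
  exact h.app _ hz

theorem rep (T : Fld n M) (x : Z) : rep (ch x) (fun z => T (Φ z)) = rep (ch (Φ x)) T := by
  funext y i j
  simp only [P366M.rep, h.J, h x]

theorem repU (T : Fld n M) (x : Z) : repU (ch x) (fun z => T (Φ z)) = repU (ch (Φ x)) T := by
  funext y i j
  simp only [P366M.repU, h.J, h x]

theorem repV (a : Fin n → M → ℝ) (x : Z) :
    repV (ch x) (fun i z => a i (Φ z)) = repV (ch (Φ x)) a := by
  funext i y
  simp only [P366M.repV, h.J, h x]

theorem repC (a : Fin n → M → ℝ) (x : Z) :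
    repC (ch x) (fun i z => a i (Φ z)) = repC (ch (Φ x)) a := by
  funext i y
  simp only [P366M.repC, h.J, h x]

section

variable {V : Type} [NormedAddCommGroup V] [NormedSpace ℝ V] {f : M → V} {m : WithTop ℕ∞}

theorem cAt (x : Z) : CAt m (fun z => f (Φ z)) x ↔ CAt m f (Φ x) := by
  rw [CAt, CAt, h.loc, h.pt]

theorem dAt (x : Z) : DAt (fun z => f (Φ z)) x ↔ DAt f (Φ x) := by
  rw [DAt, DAt, h.loc, h.pt]

theorem fd (f : M → V) (x : Z) : fd (fun z => f (Φ z)) x = fd f (Φ x) := by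
  rw [P366M.fd, P366M.fd, h.loc, h.pt]

theorem cd (hm : m ≤ ∞) (hf : CD m f) : CD m fun z => f (Φ z) :=
  cd_of_cAt hm fun x => (h.cAt x).2 hf.contDiffAt

theorem cv (hm : m ≤ ∞) (ha : CV m a) : CV m fun i z => a i (Φ z) :=
  cv_of hm fun x => ⟨_, ch_mem x, mem_ch x, fun i => by
    rw [h.repV]; exact (ha _ (ch_mem _) i).contDiffAt⟩

theorem cc (hm : m ≤ ∞) (ha : CC m a) : CC m fun i z => a i (Φ z) :=
  cc_of hm fun x => ⟨_, ch_mem x, mem_ch x, fun i => by
    rw [h.repC]; exact (ha _ (ch_mem _) i).contDiffAt⟩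

end

theorem smooth (hu : Smooth u) : Smooth fun z => u (Φ z) := h.cd le_rfl hu

theorem smT (hT : SmT T) : SmT fun z => T (Φ z) :=
  smT_of fun x => ⟨_, ch_mem x, mem_ch x, fun i j => by
    rw [h.rep]; exact (hT _ (ch_mem _) i j).contDiffAt⟩

theorem met (hg : Met g) : Met fun z => g (Φ z) := ⟨h.smT hg.sm, fun _ => hg.sy _, fun _ => hg.pos _⟩

theorem pd (i : Fin n) (u : M → ℝ) : pd i (fun z => u (Φ z)) = fun x => pd i u (Φ x) :=
  funext fun x => by rw [P366M.pd, P366M.pd, h.loc, h.pt]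

theorem pd2 (i j : Fin n) (u : M → ℝ) : pd2 i j (fun z => u (Φ z)) = fun x => pd2 i j u (Φ x) :=
  funext fun x => by rw [P366M.pd2, P366M.pd2, h.loc, h.pt]

theorem chr (g : Fld n M) (k i j : Fin n) :
    chr (fun z => g (Φ z)) k i j = fun x => chr g k i j (Φ x) :=
  funext fun x => by rw [P366M.chr, P366M.chr, h.rep, h.pt]

theorem scal (g : Fld n M) : scal (fun z => g (Φ z)) = fun x => scal g (Φ x) :=
  funext fun x => by rw [P366M.scal, P366M.scal, h.rep, h.pt]

theorem ric (g : Fld n M) : ric (fun z => g (Φ z)) = fun x => ric g (Φ x) :=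
  funext fun x => by rw [P366M.ric, P366M.ric, h.rep, h.pt]

theorem hess (g : Fld n M) (u : M → ℝ) :
    hess (fun z => g (Φ z)) (fun z => u (Φ z)) = fun x => hess g u (Φ x) := by
  funext x i j
  simp only [P366M.hess, h.pd, h.pd2, h.chr]

theorem ip (g : Fld n M) (u w : M → ℝ) :
    ip (fun z => g (Φ z)) (fun z => u (Φ z)) (fun z => w (Φ z)) = fun x => ip g u w (Φ x) := by
  funext x
  simp only [P366M.ip, h.pd]
  rfl

theorem gn (g : Fld n M) (u : M → ℝ) :
    gn (fun z => g (Φ z)) (fun z => u (Φ z)) = fun x => gn g u (Φ x) := by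
  funext x
  rw [P366M.gn, h.ip]
  rfl

theorem gr (g : Fld n M) (u : M → ℝ) :
    gr (fun z => g (Φ z)) (fun z => u (Φ z)) = fun i x => gr g u i (Φ x) := by
  funext i x
  simp only [P366M.gr, h.pd]
  rfl

theorem dv (g : Fld n M) (a : Fin n → M → ℝ) :
    dv (fun z => g (Φ z)) (fun i z => a i (Φ z)) = fun x => dv g a (Φ x) :=
  funext fun x => by rw [P366M.dv, P366M.dv, h.rep, h.repV, h.pt]

theorem lap (g : Fld n M) (u : M → ℝ) :
    lap (fun z => g (Φ z)) (fun z => u (Φ z)) = fun x => lap g u (Φ x) :=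
  funext fun x => by simp only [P366M.lap, h.rep, h.loc, h.pt]

theorem wl (g : Fld n M) (u w : M → ℝ) :
    wl (fun z => g (Φ z)) (fun z => u (Φ z)) (fun z => w (Φ z)) = fun x => wl g u w (Φ x) :=
  funext fun x => by simp only [P366M.wl, h.rep, h.loc, h.pt]

theorem Rf (g : Fld n M) (u : M → ℝ) :
    Rf (fun z => g (Φ z)) (fun z => u (Φ z)) = fun x => Rf g u (Φ x) := by
  funext x
  rw [P366D.Rf, h.scal, h.lap, h.ip]
  rfl

theorem df (u : M → ℝ) : df (fun z => u (Φ z)) = fun i x => df u i (Φ x) :=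
  funext fun i => h.pd i u

omit h [Mf0 n Z] [Mf0 n M] in
theorem sh (g : Fld n M) (a : Fin n → M → ℝ) :
    sh (fun z => g (Φ z)) (fun i z => a i (Φ z)) = fun i x => sh g a i (Φ x) := rfl

omit h [Mf0 n Z] [Mf0 n M] in
theorem iv (g : Fld n M) (a b : Fin n → M → ℝ) :
    iv (fun z => g (Φ z)) (fun i z => a i (Φ z)) (fun i z => b i (Φ z)) =
      fun x => iv g a b (Φ x) := rfl

theorem Rv (g : Fld n M) (a : Fin n → M → ℝ) :
    Rv (fun z => g (Φ z)) (fun i z => a i (Φ z)) = fun x => Rv g a (Φ x) := by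
  funext x
  rw [P210G.Rv, h.scal, sh, h.dv]
  rfl

theorem Lv (g : Fld n M) (a : Fin n → M → ℝ) (u : M → ℝ) :
    Lv (fun z => g (Φ z)) (fun i z => a i (Φ z)) (fun z => u (Φ z)) = fun x => Lv g a u (Φ x) := by
  funext x
  rw [P210G.Lv, h.lap, h.df]
  rfl

theorem Jd (g : Fld n M) (f : Fin n → M → ℝ) :
    Jd (fun z => g (Φ z)) (fun k z => f k (Φ z)) = fun x => Jd g f (Φ x) := by
  funext x
  simp only [P223Y.Jd, h.pd]
  rfl

theorem mp (x : Z) : mp (ch x) (ch (Φ x)) Φ = fun y => y :=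
  funext fun y => by rw [P366M.mp, ← h, right_inv (ch_mem _)]

theorem smM (x : Z) : SmM Φ x :=
  smM_of_mp h.cont.continuousAt (ch_mem x) (ch_mem _) (mem_ch x) (mem_ch _)
    (by rw [h.mp]; exact contDiffAt_id)

theorem jm (x : Z) : jm Φ x = 1 := by rw [jm_eq, h.mp, jac_id]

theorem pull (T : Fld n M) : pull Φ T = fun z => T (Φ z) := funext fun x => by
  have := mat_pull Φ T x
  rw [h.jm, Matrix.transpose_one, Matrix.one_mul, Matrix.mul_one] at this
  exact this

theorem isoM (hg : Met g) (x : Z) : IsoM Φ g (fun z => g (Φ z)) x :=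
  ⟨.of_forall h.smM, hg, h.met hg, by rw [h.pull]⟩

theorem map_vol (hg : Met g) (hb : Function.Bijective Φ) :
    (vol fun z => g (Φ z)).map Φ = vol g := by
  have := map_restrict_iso MeasurableSet.univ (fun x _ => h.isoM hg x) hb.1.injOn
  rwa [image_univ, hb.2.range_eq, Measure.restrict_univ, Measure.restrict_univ] at this

theorem integral {V : Type} [NormedAddCommGroup V] [NormedSpace ℝ V] (hg : Met g)
    (hb : Function.Bijective Φ) (f : M → V) :
    ∫ x, f (Φ x) ∂vol (fun z => g (Φ z)) = ∫ x, f x ∂vol g := by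
  have := integral_iso MeasurableSet.univ (fun x _ => h.isoM hg x) hb.1.injOn f
  rw [image_univ, hb.2.range_eq, Measure.restrict_univ, Measure.restrict_univ] at this
  exact this.symm

theorem lintegral (hg : Met g) (hb : Function.Bijective Φ) (f : M → ENNReal) :
    ∫⁻ x, f (Φ x) ∂vol (fun z => g (Φ z)) = ∫⁻ x, f x ∂vol g := by
  have := lintegral_iso MeasurableSet.univ (fun x _ => h.isoM hg x) hb.1.injOn f
  rw [image_univ, hb.2.range_eq, Measure.restrict_univ, Measure.restrict_univ] at this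
  exact this.symm

end Cm

/-! ### the deck transformations -/

variable {X Γ : Type} [Mf0 n X] [Group Γ] [MulAction Γ X]

theorem tl_apply {α : Type} (γ : Γ) (f : X → α) (x : X) : tl γ f x = f (γ⁻¹ • x) := rfl

theorem tl_smul {α : Type} (γ : Γ) (f : X → α) (x : X) : tl γ f (γ • x) = f x := by
  rw [tl, inv_smul_smul]

theorem tl_one {α : Type} (f : X → α) : tl (1 : Γ) f = f := funext fun x => by
  rw [tl, inv_one, one_smul]

theorem tl_mul {α : Type} (γ γ' : Γ) (f : X → α) : tl (γ * γ') f = tl γ (tl γ' f) :=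
  funext fun x => by simp only [tl, mul_inv_rev, mul_smul]

theorem tl_inv {α : Type} {f : X → α} (hf : ∀ (γ : Γ) x, f (γ • x) = f x) (γ : Γ) :
    tl γ f = f := funext fun x => hf _ x

namespace Deck

variable (D : Deck X Γ) {g : Fld n X}
include D

theorem cm (γ : Γ) : Cm fun x : X => γ • x := D.eqv γ

theorem isometry (γ : Γ) : Isometry fun x : X => γ • x := Isometry.of_dist_eq (D.iso γ)

theorem cont (γ : Γ) : Continuous fun x : X => γ • x := (D.isometry γ).continuous

theorem pt (γ : Γ) (x : X) : pt (γ • x) = pt x := (D.cm γ).pt x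

theorem smooth {u : X → ℝ} (hu : Smooth u) (γ : Γ) : Smooth (tl γ u) := (D.cm γ⁻¹).smooth hu

theorem met (hg : Met g) (γ : Γ) : Met (tl γ g) := (D.cm γ⁻¹).met hg

theorem cs {α : Type} [Zero α] {u : X → α} (hu : HasCompactSupport u) (γ : Γ) :
    HasCompactSupport (tl γ u) :=
  hu.comp_isClosedEmbedding (Homeomorph.isClosedEmbedding
    ⟨MulAction.toPerm γ⁻¹, D.cont γ⁻¹, D.cont γ⁻¹⁻¹⟩)

theorem integral_tl {V : Type} [NormedAddCommGroup V] [NormedSpace ℝ V] (hg : Met g) (γ : Γ)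
    (f : X → V) : ∫ x, tl γ f x ∂vol (tl γ g) = ∫ x, f x ∂vol g :=
  (D.cm γ⁻¹).integral hg (MulAction.bijective _) f

theorem lintegral_tl (hg : Met g) (γ : Γ) (f : X → ENNReal) :
    ∫⁻ x, tl γ f x ∂vol (tl γ g) = ∫⁻ x, f x ∂vol g :=
  (D.cm γ⁻¹).lintegral hg (MulAction.bijective _) f

/-- an invariant metric has an invariant volume -/
theorem integral_smul {V : Type} [NormedAddCommGroup V] [NormedSpace ℝ V] (hg : Met g)
    (hi : ∀ (γ : Γ) x, g (γ • x) = g x) (γ : Γ) (f : X → V) :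
    ∫ x, f (γ • x) ∂vol g = ∫ x, f x ∂vol g := by
  have := (D.cm γ).integral hg (MulAction.bijective _) f
  simpa only [hi] using this

theorem fin2 (x y : X) (R : ℝ) : {γ : Γ | dist (γ • x) y ≤ R}.Finite :=
  (D.fin x (R + dist y x)).subset fun γ hγ => by
    have : dist (γ • x) y ≤ R := hγ
    show dist (γ • x) x ≤ _
    linarith [dist_triangle (γ • x) y x]

theorem countable : Countable Γ := by
  obtain ⟨x⟩ : Nonempty X := inferInstance
  rw [← countable_univ_iff]
  refine (countable_iUnion fun k : ℕ => (D.fin x k).countable).mono fun γ _ => ?_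
  obtain ⟨k, hk⟩ := exists_nat_ge (dist (γ • x) x)
  exact mem_iUnion.2 ⟨k, hk⟩

/-- only finitely many translates of a bounded set meet a bounded set -/
theorem fin_bdd {A B : Set X} (hA : Bornology.IsBounded A) (hB : Bornology.IsBounded B) :
    {γ : Γ | ∃ x ∈ A, γ • x ∈ B}.Finite := by
  obtain ⟨o⟩ : Nonempty X := inferInstance
  obtain ⟨r, hr⟩ := hA.subset_closedBall o
  obtain ⟨s, hs⟩ := hB.subset_closedBall o
  refine (D.fin o (r + s)).subset ?_
  rintro γ ⟨x, h1, h2⟩
  have a : dist x o ≤ r := hr h1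
  have b : dist (γ • x) o ≤ s := hs h2
  show dist (γ • o) o ≤ _
  linarith [dist_triangle_left (γ • o) o (γ • x), D.iso γ x o]

/-- the translates of a function with compact support which do not vanish on a bounded set -/
theorem fin_tl {α : Type} [Zero α] {u : X → α} (hu : HasCompactSupport u) {B : Set X}
    (hB : Bornology.IsBounded B) : {γ : Γ | ∃ x ∈ B, tl γ u x ≠ 0}.Finite :=
  (D.fin_bdd hu.isCompact.isBounded hB).subset fun γ ⟨x, h1, h2⟩ =>
    ⟨γ⁻¹ • x, subset_tsupport _ h2, by rwa [smul_inv_smul]⟩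

/-- **unfolding** -/
theorem unfold (hg : Met g) (hi : ∀ (γ : Γ) x, g (γ • x) = g x) {χ f : X → ℝ} (hχ : Wt Γ χ)
    (hf : Continuous f) (cs : HasCompactSupport f) :
    ∫ x, f x ∂vol g = ∫ x, χ x * ∑ᶠ γ : Γ, f (γ • x) ∂vol g := by
  have := hg.locFin
  have hS := D.fin_bdd hχ.cs.isCompact.isBounded cs.isCompact.isBounded
  have h1 : ∀ x, f x = ∑ γ ∈ hS.toFinset, tl γ χ x * f x := fun x => by
    by_cases h0 : f x = 0
    · simp [h0]
    rw [← Finset.sum_mul, ← finsum_eq_sum_of_support_subset, hχ.sum, one_mul]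
    intro γ hγ
    exact hS.mem_toFinset.2 ⟨γ⁻¹ • x, subset_tsupport _ hγ, by
      rw [smul_inv_smul]; exact subset_tsupport _ h0⟩
  have h2 : ∀ x, χ x * ∑ᶠ γ : Γ, f (γ • x) = ∑ γ ∈ hS.toFinset, χ x * f (γ • x) := fun x => by
    by_cases h0 : χ x = 0
    · simp [h0]
    rw [← Finset.mul_sum, ← finsum_eq_sum_of_support_subset]
    intro γ hγ
    exact hS.mem_toFinset.2 ⟨x, subset_tsupport _ h0, subset_tsupport _ hγ⟩
  simp only [h2]
  rw [integral_congr_ae (.of_forall h1), integral_finsetSum (f := fun γ x => tl γ χ x * f x) _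
    fun γ _ => ((D.smooth hχ.sm γ).cont.mul hf).integrable_of_hasCompactSupport cs.mul_left,
    integral_finsetSum (f := fun γ x => χ x * f (γ • x)) _ fun γ _ =>
    (hχ.sm.cont.mul (hf.comp (D.cont γ))).integrable_of_hasCompactSupport hχ.cs.mul_right]
  refine Finset.sum_congr rfl fun γ _ => ?_
  rw [← D.integral_smul hg hi γ]
  simp only [tl_smul]

/-- the integral of an invariant function over the quotient does not depend on the weight -/
theorem wt_indep (hg : Met g) (hi : ∀ (γ : Γ) x, g (γ • x) = g x) {χ χ' h : X → ℝ} (hχ : Wt Γ χ)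
    (hχ' : Wt Γ χ') (hh : Continuous h) (hv : ∀ (γ : Γ) x, h (γ • x) = h x) :
    ∫ x, χ' x * h x ∂vol g = ∫ x, χ x * h x ∂vol g := by
  refine (D.unfold hg hi hχ (hχ'.sm.cont.mul hh) hχ'.cs.mul_right).trans
    (integral_congr_ae (.of_forall fun x => ?_))
  have h1 := hχ'.sum x
  rw [← finsum_comp_equiv (Equiv.inv Γ)] at h1
  simp only [tl, Equiv.inv_apply, inv_inv] at h1
  simp only [hv, Pi.mul_apply]
  rw [← finsum_mul, h1, one_mul]

end Deck

end Vale.Agent.P223Y
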