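import Vale.Agent.P210B.Defs
import Vale.Agent.P223.X.DefM

/-!
# P223Y: the question, and the statement `GOAL` on the universal covering (helper70)
-/

open MeasureTheory Set
open Vale.Agent.P366.Stmt (E)
open Vale.Agent.P366M Vale.Agent.P210B

noncomputable section

namespace Vale.Agent.P223Y

/-- the question in dimension `n` -/
def Q1 (n : ℕ) : Prop := ∃ A > (0 : ℝ), ∀ (M : Type) [TopologicalSpace M] [CompactSpace M]
  [T2Space M] [ConnectedSpace M] [MeasurableSpace M] [BorelSpace M] (c : M → P223.J.Ch n M),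
  P223.J.Atl c → ∀ (g : M → P223.J.Mtx n) (μ : Measure M), P223.J.Met c g → P223.J.Vol c g μ →
    P223.J.sv c ≤ ENNReal.ofReal A * P223.J.L n μ (P223.J.sn c g)

/-- `Γ` acts freely, properly and cocompactly by isometries; it permutes the preferred charts, and
the preferred charts are oriented -/
structure Deck {n : ℕ} (X Γ : Type) [Mf0 n X] [Group Γ] [MulAction Γ X] : Prop where
  eqv : ∀ (γ : Γ) (x : X) (y : E n), (ch (γ • x)).symm y = γ • (ch x).symm y
  eqv' : ∀ (γ : Γ) (x p : X), ch (γ • x) (γ • p) = ch x p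
  iso : ∀ (γ : Γ) (x y : X), dist (γ • x) (γ • y) = dist x y
  free : ∀ (γ : Γ) (x : X), γ • x = x → γ = 1
  fin : ∀ (x : X) (R : ℝ), {γ : Γ | dist (γ • x) x ≤ R}.Finite
  coc : ∃ (o : X) (R : ℝ), ∀ x, ∃ γ : Γ, dist (γ • o) x ≤ R
  ori : ∀ (x x' : X) (y : E n), (ch x).symm y ∈ (ch x').source →
    0 < (jac (tm (ch x) (ch x')) y).det

/-- bounded homogeneous cocycles -/
structure Coc {n : ℕ} {Γ : Type} [Group Γ] (F : (Fin (n + 1) → Γ) → ℝ) : Prop where
  bd : ∀ l, |F l| ≤ 1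
  inv : ∀ (γ : Γ) l, F (fun k => γ * l k) = F l
  coc : ∀ l : Fin (n + 2) → Γ, ∑ k : Fin (n + 2), (-1 : ℝ) ^ (k : ℕ) * F (l ∘ k.succAbove) = 0

variable {n : ℕ} {X : Type} [Mf0 n X]

/-- the density of `df₁ ∧ … ∧ dfₙ` with respect to `vol g` -/
def Jd (g : Fld n X) (f : Fin n → X → ℝ) (x : X) : ℝ :=
  (Matrix.of fun k i => pd i (f k) x).det / √(mat g x).det

variable {Γ : Type} [Group Γ] [MulAction Γ X]

/-- the translate of a function -/
def tl {α : Type} (γ : Γ) (f : X → α) (x : X) : α := f (γ⁻¹ • x)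

/-- the translates of `χ` are a partition of unity -/
structure Wt (Γ : Type) [Group Γ] [MulAction Γ X] (χ : X → ℝ) : Prop where
  sm : Smooth χ
  cs : HasCompactSupport χ
  nn : ∀ x, 0 ≤ χ x
  sum : ∀ x, ∑ᶠ γ : Γ, tl γ χ x = 1

/-- the value of the cocycle `F` on the fundamental class of `X / Γ` -/
def pair (g : Fld n X) (χ : X → ℝ) (F : (Fin (n + 1) → Γ) → ℝ) : ℝ :=
  ∑ᶠ l : Fin n → Γ, (∫ x, χ x * Jd g (fun k => tl (l k) χ) x ∂vol g) * F (Fin.cons 1 l)

/-- **GOAL**: the volume form of the inequality on the universal covering -/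
def GOAL (n : ℕ) : Prop := ∃ C : ℝ, ∀ (X Γ : Type) [Mf0 n X] [Group Γ] [MulAction Γ X],
  Deck X Γ → ∀ g : Fld n X, Riem g → (∀ (γ : Γ) x, g (γ • x) = g x) → (∀ x, -1 ≤ scal g x) →
  ∀ χ : X → ℝ, Wt Γ χ → ∀ F : (Fin (n + 1) → Γ) → ℝ, Coc F →
    |pair g χ F| ≤ C * ∫ x, χ x ∂vol g

end Vale.Agent.P223Y
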