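import Vale.Agent.P223G.Defs
import Vale.Agent.P223B.Sg
import Vale.Agent.P210E.Chain

/-!
# P223Y: the event move at all the translates of one colour class
-/

open Filter Topology Set
open scoped ContDiff
open Vale.Agent.P366M Vale.Agent.P366M.Gr Vale.Agent.P366M.Y.C Vale.Agent.P210G
open Vale.Agent.P223F Vale.Agent.P223A Vale.Agent.P223G
open Vale.Agent.P223B (gb_of_ev ww_of_eq a2_of_ev sm_a2 inv_gb inv_a2 tr_gb tr_a2)
open Vale.Agent.P210U (Rv_of_ev cc_loc)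
open Vale.Agent.P210E (gn_gb_self gn_gb_le)

noncomputable section

namespace Vale.Agent.P223Y

section Pt

variable {n : ℕ} {X : Type} [Mf0 n X] {g₀ g : Fld n X} {v v' : Fin n → X → ℝ} {Q w : X → ℝ} {x : X}
  {s δ : ℝ}

/-- where the height is locally constant, the mass does not change -/
theorem md_const {c : ℝ} (e : w =ᶠ[𝓝 x] fun _ => c) (e' : ∀ i, v' i =ᶠ[𝓝 x] v i) :
    md s δ g₀ (gb g 1 w) v' (fun y => Q y + a2 g w y) x = md s δ g₀ g v Q x := by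
  have k : gb g 1 w =ᶠ[𝓝 x] g :=
    (gb_congr e).trans (.of_forall fun y => by funext i j; simp [gb, pd_const])
  have a : a2 g w x = 0 := by simp [a2, normSq, hess_congr e, hess_const]
  simp only [md, dr, mat, Rv_of_ev k e', a, add_zero, k.self_of_nhds]

/-- the mass after the event -/
theorem md_band (hg : Met g) (hw : Smooth w) (s0 : 0 < s) (δ1 : δ ≤ 1 / 2) {C z : ℝ} (z1 : 1 ≤ z)
    (h : Rv g v x - C + a2 g w x / 2 + s⁻¹ * lw g w x - s⁻¹ / 2 * Real.log z ≤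
      Rv (gb g 1 w) v' x) : md s δ g₀ (gb g 1 w) v' (fun y => Q y + a2 g w y) x ≤
        md s δ g₀ g v Q x * (Real.exp (s * C) * √z) := by
  have e : dr g₀ (gb g 1 w) x = Real.exp (lw g w x) * dr g₀ g x := by
    rw [dr, GbH.sqrt_det_gb hg, lw, Real.exp_log (w_pos hg w x), mul_div_assoc, dr]
  have z0 : 0 < z := one_pos.trans_le z1
  rw [md, md, e, ← Real.exp_log (Real.sqrt_pos.2 z0), Real.log_sqrt z0.le, ← mul_assoc,
    mul_right_comm _ (dr g₀ g x), ← Real.exp_add, ← Real.exp_add, ← Real.exp_add]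
  refine mul_le_mul_of_nonneg_right (Real.exp_le_exp.2 ?_) (div_nonneg (Real.sqrt_nonneg _)
    (Real.sqrt_nonneg _))
  have h1 := mul_le_mul_of_nonneg_left h s0.le
  have h2 := mul_le_mul_of_nonneg_left (mul_le_mul_of_nonneg_right δ1 (a2_nonneg hg hw x)) s0.le
  have h3 : s * (s⁻¹ * lw g w x) = lw g w x := mul_inv_cancel_left₀ s0.ne' _
  have h4 : s * (s⁻¹ / 2 * Real.log z) = Real.log z / 2 := by field_simp
  linarith

end Pt

/-- **MOV** -/
theorem mov {n : ℕ} (hE : EVT n) : MOV n := by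
  intro s s0
  obtain ⟨C, hE⟩ := hE s⁻¹ (inv_pos.2 s0)
  refine ⟨max 1 (Real.exp (s * C)), le_max_left _ _, fun r r1 E => ?_⟩
  obtain ⟨L₁, hE⟩ := hE r r1 E
  refine ⟨L₁, fun L hL L0 X Γ _ _ _ g₀ d h₀ i₀ F K D A δ g v Q θ ζ hK hD KD hA hs δ0 δ1 S tθ tζ sθ
    sζ off hb => ?_⟩
  choose w₁ v₁ h1 h2 h3 h4 h5 h6 h7 using fun o => hE L hL X (g o) (v o) (θ o) (ζ o) (S.met o)
    (S.cc o) (sθ o) (sζ o) (hK.of_isClosed_subset (isClosed_le (sθ o).cont.abs continuous_const)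
      fun x (q : |θ o x| ≤ r + 6) => by_contra fun k => by linarith [off o x k, (abs_le.1 q).1])
    (hb o)
  obtain ⟨ρ, lρ, hρ⟩ := ((S.rg.tr.prod S.rv.tr).prod (tθ.prod tζ)).rep hD hA
  let _ : MulAction Γ (ℝ × (Fin n → ℝ)) :=
    { smul := fun _ a => a, one_smul := fun _ => rfl, mul_smul := fun _ _ _ => rfl }
  obtain ⟨σ, c1, c2, c3, c4⟩ := glue d (σ := fun o x => (-(L * r), fun i => v o i x))
    (τ := fun o x => (w₁ (ρ o) x, fun i => v₁ (ρ o) i x))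
    (fun γ o x => congrArg (Prod.mk _) (S.rv.inv γ o x)) (S.rv.tr.map fun _ a => (-(L * r), a))
    (tr_lc lρ fun o x => (w₁ o x, fun i => v₁ o i x)) hA hK KD hs fun o _ x b k => by
      have e := off (ρ o) x k
      exact Prod.ext (h4 _ x (by linarith)) ((funext (h6 _ x (lt_abs.2 (.inr (by linarith))))).trans
        (congrArg (fun a => a.1.2) ((hρ o).2 x b)))
  have iσ : Inv Γ σ := c1
  have o1 : ∀ o, ∀ x ∉ Un Γ A K o, σ o =ᶠ[𝓝 x] fun x => (-(L * r), fun i => v o i x) :=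
    fun o x q => mem_of_superset ((isClosed_un d hA.isClosed hK o).isOpen_compl.mem_nhds q) (c3 o)
  have lc : ∀ o x, ∃ w' v', Smooth w' ∧ CC ∞ v' ∧ σ o =ᶠ[𝓝 x] fun z => (w' z, fun i => v' i z) :=
    fun o x => by
    by_cases q : x ∈ Un Γ A K o
    · obtain ⟨γ, a, b⟩ := q
      exact ⟨_, _, (d.cm γ⁻¹).smooth (h1 (ρ (γ⁻¹ • o))), (d.cm γ⁻¹).cc le_rfl (h2 (ρ (γ⁻¹ • o))),
        (((cont_smul d γ⁻¹).tendsto x).eventually (mem_interior_iff_mem_nhds.1 (KD b))).mono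
          fun z k => (iσ γ⁻¹ o z).symm.trans (c4 _ a _ k)⟩
    · exact ⟨_, _, cd_const, S.cc o, o1 o x q⟩
  have sw : ∀ o, Smooth fun x => (σ o x).1 := fun o => cd_of_cAt le_rfl fun x => by
    obtain ⟨w', v', a, -, c⟩ := lc o x
    exact (CD.contDiffAt a).congr_of_eventuallyEq (c.mono fun z k => congrArg Prod.fst k)
  have cv : ∀ o, CC ∞ fun i x => (σ o x).2 i := fun o => cc_loc fun x => by
    obtain ⟨w', v', -, b, c⟩ := lc o x
    exact ⟨v', b, fun i => c.mono fun z k => congrArg (fun a => a.2 i) k⟩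
  have tw : Tr fun o x => (σ o x).1 := c2.map fun _ a => a.1
  have iw : Inv Γ fun o x => (σ o x).1 := fun γ o x => congrArg Prod.fst (iσ γ o x)
  refine ⟨fun o => gb (g o) 1 fun x => (σ o x).1, fun o i x => (σ o x).2 i,
    fun o x => Q o x + a2 (g o) (fun x => (σ o x).1) x, fun o x => L⁻¹ * (σ o x).1,
    ⟨⟨⟨tr_gb S.rg.tr tw, inv_gb d S.rg.inv iw⟩, ⟨c2.map fun _ a => a.2,
      fun γ o x => congrArg Prod.snd (iσ γ o x)⟩, fun o => met_g (S.met o) (sw o), cv⟩,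
      ⟨⟨S.rq.tr.map₂ (tr_a2 S.rg.tr tw) fun _ a b => a + b,
        fun γ o x => congrArg₂ (· + ·) (S.rq.inv γ o x) (inv_a2 d S.rg.inv iw γ o x)⟩,
        fun o => CD.add (S.rq.sm o) (sm_a2 (S.met o) (sw o))⟩, fun o => (S.gi o).step (sw o)⟩,
    ⟨⟨tw.map fun _ a => L⁻¹ * a, fun γ o x => congrArg (L⁻¹ * ·) (iw γ o x)⟩,
      fun o => CD.mul cd_const (sw o)⟩, fun o u x => ?_, fun o x => ?_, fun o x q => ⟨?_, ?_⟩,
    fun o a x b => ?_⟩
  · rw [← (S.met o).gn_sq, ← (met_g (S.met o) (sw o)).gn_sq]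
    exact pow_le_pow_left₀ (gn_nonneg _ _ _) (gn_gb_le (S.met o) _ u x) 2
  · rw [gn_of_pd (pd_const_mul _), abs_of_pos (inv_pos.2 L0), one_div]
    exact mul_le_of_le_one_right (inv_pos.2 L0).le (gn_gb_self (S.met o) _ x)
  · beta_reduce
    rw [c3 o x q]
    field_simp
  · exact md_const (c := -(L * r)) ((o1 o x q).mono fun z k => congrArg Prod.fst k)
      fun i => (o1 o x q).mono fun z k => congrArg (fun a => a.2 i) k
  have N : ∀ᶠ z in 𝓝 x, z ∈ D := mem_interior_iff_mem_nhds.1 (KD b)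
  have e1 : (fun z => (σ o z).1) =ᶠ[𝓝 x] w₁ (ρ o) :=
    N.mono fun z k => congrArg Prod.fst (c4 o a z k)
  have e2 : ∀ i, (fun z => (σ o z).2 i) =ᶠ[𝓝 x] v₁ (ρ o) i := fun i =>
    N.mono fun z k => congrArg (fun a => a.2 i) (c4 o a z k)
  have e3 : g (ρ o) =ᶠ[𝓝 x] g o := N.mono fun z k => congrArg (fun a => a.1.1) ((hρ o).2 z k)
  have e4 : ∀ i, v (ρ o) i =ᶠ[𝓝 x] v o i := fun i =>
    N.mono fun z k => congrArg (fun a => a.1.2 i) ((hρ o).2 z k)
  have e5 : θ (ρ o) x = θ o x := congrArg (fun a => a.2.1) ((hρ o).2 x N.self_of_nhds)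
  have e6 : ζ (ρ o) x = ζ o x := congrArg (fun a => a.2.2) ((hρ o).2 x N.self_of_nhds)
  have e7 : (σ o x).1 = w₁ (ρ o) x := e1.self_of_nhds
  beta_reduce
  refine ⟨?_, fun q => ?_, ?_⟩
  · rw [e7, ← e5, show L⁻¹ * w₁ (ρ o) x - cl r (θ (ρ o) x) =
      L⁻¹ * (w₁ (ρ o) x - L * cl r (θ (ρ o) x)) by field_simp, abs_mul, abs_of_pos (inv_pos.2 L0),
      inv_mul_le_iff₀ L0]
    linarith [h5 (ρ o) x]
  · rw [e7, h3 _ x (e5 ▸ q), inv_mul_cancel_left₀ L0.ne']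
  split_ifs with q
  · have k := h7 (ρ o) x (e5 ▸ q)
    rw [Rv_of_ev e3 e4, a2_of_ev e3 e1.symm, lw, ww_of_eq e3.self_of_nhds e1.symm, e6,
      Rv_of_ev (gb_of_ev e3 e1.symm) fun i => (e2 i).symm] at k
    exact (md_band (S.met o) (sw o) s0 δ1 (hb o x q).1 k).trans (mul_le_mul_of_nonneg_left
      (mul_le_mul_of_nonneg_right (le_max_right _ _) (Real.sqrt_nonneg _)) (mul_nonneg
        (Real.exp_pos _).le (div_nonneg (Real.sqrt_nonneg _) (Real.sqrt_nonneg _))))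
  rw [← e5, not_le] at q
  have cθ := (sθ (ρ o)).cont.continuousAt (x := x)
  have e8 : ∀ i, (fun z => (σ o z).2 i) =ᶠ[𝓝 x] v o i := fun i => (e2 i).trans
    (EventuallyEq.trans ((cθ.abs.eventually (lt_mem_nhds q)).mono fun z k => h6 _ z k i) (e4 i))
  rw [mul_one]
  rcases lt_abs.1 q with t | t
  · exact (md_const (e1.trans ((cθ.eventually (lt_mem_nhds t)).mono fun z k =>
      h3 _ z (by linarith))) e8).le
  · exact (md_const (e1.trans ((cθ.eventually (gt_mem_nhds (lt_neg.1 t))).mono fun z k =>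
      h4 _ z (by linarith))) e8).le

end Vale.Agent.P223Y
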