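import Vale.Agent.P223U.Defs
import Vale.Agent.P223C.Zm
import Vale.Agent.P223D.Deg

/-!
# P223Y: the work on the hypersurface, `ZC` from `CUBE` (shield move, zoom)
-/

open Filter Topology Set MeasureTheory
open scoped ContDiff
open Vale.Agent.P366M Vale.Agent.P366M.Gr Vale.Agent.P366M.Y.C
open Vale.Agent.P210G Vale.Agent.P210U Vale.Agent.P223U
open Vale.Agent.P210E (K4 gn_gb_le)
open Vale.Agent.P210H (gn_lin)

noncomputable section

namespace Vale.Agent.P223Y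

theorem ph_nn (s T y : ℝ) : 0 ≤ Ph s T y := le_max_right _ _

theorem ph_zero {s T y : ℝ} (hs : 0 ≤ s) (h : T ≤ y) : Ph s T y = 0 :=
  max_eq_right (sub_nonpos.2 (Real.exp_le_exp.2 (by nlinarith)))

theorem ph_vol {s T y y' W : ℝ} (hs : 0 < s) (hW : 1 ≤ W) (h : y + s⁻¹ * Real.log W - 1 ≤ y') :
    Ph s T y' * W ≤ Real.exp s * Ph s (T + 1) y := by
  have W0 : 0 < W := one_pos.trans_le hW
  have h1 : Real.exp (-s * y') * W ≤ Real.exp s * Real.exp (-s * y) := by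
    rw [← Real.exp_log W0, ← Real.exp_add, ← Real.exp_add, Real.exp_le_exp]
    have := mul_le_mul_of_nonneg_left h hs.le
    rw [mul_sub, mul_add, mul_inv_cancel_left₀ hs.ne'] at this
    linarith
  have h2 : Real.exp (-s * T) = Real.exp s * Real.exp (-s * (T + 1)) := by
    rw [← Real.exp_add]; congr 1; ring
  have h3 := mul_le_mul_of_nonneg_left (le_max_left (Real.exp (-s * y) - Real.exp (-s * (T + 1))) 0)
    (Real.exp_pos s).le
  have h4 := mul_nonneg (Real.exp_pos s).le (ph_nn s (T + 1) y)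
  have h5 := mul_le_mul_of_nonneg_left hW (Real.exp_pos (-s * T)).le
  unfold Ph at *
  rcases le_total (Real.exp (-s * y') - Real.exp (-s * T)) 0 with k | k
  · rwa [max_eq_right k, zero_mul]
  · rw [max_eq_left k]; nlinarith

theorem prod_zero {n : ℕ} {r : ℝ} {ψ : ℝ → ℝ} (hψ : Bmp r ψ) (hr : n * r ^ 2 ≤ 1 / 128)
    {a : Fin n → ℝ} (h : 1 / 128 < ∑ j, a j ^ 2) : ∏ j, ψ (a j) = 0 := by
  by_contra q
  have k : ∀ j, a j ^ 2 ≤ r ^ 2 := fun j => by
    have : |a j| < r := not_le.1 fun t => Finset.prod_ne_zero_iff.1 q j (Finset.mem_univ _)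
      (hψ.supp _ t)
    exact sq_le_sq' (abs_lt.1 this).1.le (abs_lt.1 this).2.le
  have := Finset.sum_le_sum fun j (_ : j ∈ Finset.univ) => k j
  rw [Finset.sum_const, Finset.card_fin, nsmul_eq_mul] at this
  linarith

/-- **ZC** from `CUBE` in the same dimension -/
theorem zc' {k : ℕ} (hk : 1 ≤ k) (hC : CUBE (k + 1)) : ZC k := by
  intro s s0 r ψ hψ hr
  obtain ⟨A₀, T, C, C0, hC⟩ := hC s s0 r ψ hψ hr
  refine ⟨max (256 * A₀) 0, T + 1, C * (16 ^ (k + 1) * Real.exp s), by positivity,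
    fun A hA m m1 L L0 => ?_⟩
  have A0 : 0 ≤ A := (le_max_right _ _).trans hA
  obtain ⟨Γ₀, hS⟩ := P223C.zw (n := k + 1) (by omega) (Q := |T| + L + 1 + A * (m * L) ^ 2)
    (by positivity)
  refine ⟨Γ₀, fun Γ hΓ Z _ γ β l p α D W w h V h₁ H δ δ0 => ?_⟩
  have cw := H.smw.cont
  have lp := H.ok.l0
  have mγ := H.ok.met
  obtain ⟨ε, ε0, εL, εp⟩ : ∃ ε > (0 : ℝ), ε ≤ L⁻¹ ∧ ∀ z, w z ≤ 11 / 8 → ε ≤ p z := by
    obtain ⟨B, hB⟩ := H.cpt.exists_bound_of_continuousOn (f := fun z => (p z)⁻¹)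
      (H.smp.cont.inv₀ fun z => (H.p0 z).ne').continuousOn
    refine ⟨(max L B)⁻¹, inv_pos.2 (lt_max_of_lt_left L0), inv_anti₀ L0 (le_max_left _ _),
      fun z q => inv_le_of_inv_le₀ (H.p0 z) ?_⟩
    exact ((le_abs_self _).trans (hB z q)).trans (le_max_right _ _)
  obtain ⟨u, μ, su, sμ, hμ⟩ := hS Γ hΓ ⟨mγ, H.ok.cc, H.smW, H.smw, H.cpt, H.W1, H.lrg, H.smh, H.h0,
    H.low, H.cls, H.pos, H.big, fun z q => (H.bd z q).1⟩ s⁻¹ (by positivity) 1 one_pos m m1 ε ε0
  have m₁ := met_g mγ su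
  have c₁ := cc_vg mγ H.ok.cc su
  have gl := gn_gb_le mγ u
  have iv := integral_g mγ su
  generalize gb γ 1 u = γ₁ at *
  generalize vg γ β u = β₁ at *
  have μ0 : ∀ z, 0 < μ z := fun z => one_pos.trans_le (hμ z).1
  obtain ⟨l₁, hl⟩ : ∃ l₁ : Z → ℝ, l₁ = fun z => 16⁻¹ * (l z * (μ z)⁻¹) := ⟨_, rfl⟩
  obtain ⟨p₁, hp⟩ : ∃ p₁ : Z → ℝ, p₁ = fun z => 16 * (μ z * p z) := ⟨_, rfl⟩
  obtain ⟨G, hG⟩ : ∃ G : Fin (k + 1) → Z → ℝ, G = fun j z => 8 * (μ z * D j z) := ⟨_, rfl⟩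
  have l1 : ∀ z, l₁ z * (16 * μ z) = l z := fun z => by
    have := (μ0 z).ne'
    rw [hl]; field_simp
  have l2 : ∀ z, 0 < l₁ z := fun z => hl ▸ mul_pos (by norm_num) (mul_pos (lp z) (inv_pos.2 (μ0 z)))
  have l3 : ∀ z, 16 * l₁ z ≤ l z := fun z => by nlinarith [l1 z, l2 z, (hμ z).1]
  have l4 : ∀ z, A / 256 / l₁ z ^ 2 = A / l z ^ 2 * μ z ^ 2 := fun z => by
    have := (μ0 z).ne'
    have := (l2 z).ne'
    rw [← l1 z]; field_simp; norm_num
  have si : Smooth fun z => (μ z)⁻¹ :=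
    cd_of_cAt le_rfl fun z => (CD.contDiffAt sμ).inv (μ0 z).ne'
  have sl : Smooth l₁ := hl ▸ CD.mul cd_const (CD.mul H.ok.sml si)
  have sp : Smooth p₁ := hp ▸ CD.mul cd_const (CD.mul sμ H.smp)
  have p1 : ∀ z, 0 < p₁ z := fun z => hp ▸ mul_pos (by norm_num) (mul_pos (μ0 z) (H.p0 z))
  have sG : ∀ j, Smooth (G j) := fun j => hG ▸ CD.mul cd_const (CD.mul sμ (H.smD j))
  have nG : ∀ z, nsq G z = 64 * (μ z ^ 2 * nsq D z) := fun z => by
    simp only [nsq, hG, Finset.mul_sum]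
    exact Finset.sum_congr rfl fun _ _ => by ring
  have n0 : ∀ z, 0 ≤ nsq D z := fun z => Finset.sum_nonneg fun _ _ => sq_nonneg _
  have n1 : ∀ z, 64 * nsq D z ≤ nsq G z := fun z => by
    rw [nG]
    nlinarith [mul_le_mul_of_nonneg_right (one_le_pow₀ (hμ z).1 (n := 2)) (n0 z)]
  have n2 : ∀ z, 9 / 8 ≤ w z → μ z = m ∧ 64 ≤ nsq G z := fun z q => by
    have e := (hμ z).2.2.2.1 q
    rw [nG, e]
    exact ⟨rfl, by linarith [H.far z (by linarith)]⟩
  have k1 : ∀ z ∈ K4 G {z | 0 < α z}, w z ≤ 9 / 8 := fun z q => not_lt.1 fun t => by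
    linarith [(n2 z t.le).2, q.2]
  have k2 : ∀ z ∈ K4 G {z | 0 < α z}, 1 / 2 ≤ α z := fun z q =>
    H.sep z (by linarith [k1 z q]) q.1 (by linarith [n1 z, q.2])
  have cK : IsCompact (K4 G {z | 0 < α z}) := by
    have e : K4 G {z | 0 < α z} = {z | w z ≤ 9 / 8} ∩ ({z | 1 / 2 ≤ α z} ∩ {z | nsq G z ≤ 4}) := by
      ext z
      exact ⟨fun q => ⟨k1 z q, k2 z q, q.2⟩,
        fun q => ⟨lt_of_lt_of_le (by norm_num) (show 1 / 2 ≤ α z from q.2.1), q.2.2⟩⟩
    rw [e]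
    exact H.cpt.of_isClosed_subset ((isClosed_le cw continuous_const).inter ((isClosed_le
      continuous_const H.smα.cont).inter (isClosed_le (sm_nsq sG).cont continuous_const)))
        fun z q => le_trans (show w z ≤ 9 / 8 from q.1) (by norm_num)
  have bd : ∀ z ∈ K4 G {z | 0 < α z}, gn γ₁ l₁ z ≤ 1 ∧ l₁ z * gn γ₁ p₁ z ≤ p₁ z ∧
      ∀ j, l₁ z * gn γ₁ (G j) z ≤ 1 ∧ gn γ₁ (G j) z ≤ p₁ z * (1 + A / 256 / l₁ z ^ 2) :=
    fun z q => by
    have wz : w z ≤ 11 / 8 := by linarith [k1 z q]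
    obtain ⟨a1, -, a3, -⟩ := hμ z
    obtain ⟨-, -, -, b2, b3, b4, b5⟩ := H.bd z wz
    have g0 := gn_nonneg γ₁ μ z
    have lz := lp z
    have pz := H.p0 z
    have gμ : l z * gn γ₁ μ z ≤ 1 :=
      (mul_le_mul b2 (a3.trans εL) g0 L0.le).trans (mul_inv_cancel₀ L0.ne').le
    have gμ' : 16 * (l₁ z * gn γ₁ μ z) ≤ 1 := by nlinarith [l3 z]
    refine ⟨?_, ?_, fun j => ?_⟩
    · have i1 : (μ z)⁻¹ ≤ 1 := inv_le_one_of_one_le₀ a1
      have i0 : 0 < (μ z)⁻¹ := inv_pos.2 (μ0 z)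
      have := gn_lin (u := l₁) m₁ fun i => show pd i l₁ z = 16⁻¹ * (μ z)⁻¹ * pd i l z +
          -(16⁻¹ * (l z * (μ z)⁻¹ ^ 2)) * pd i μ z by
        rw [hl, pd_const_mul, pd_mul (H.ok.sml.diff z) (si.diff z),
          pd_comp (φ := fun t => t⁻¹) (hasDerivAt_inv (μ0 z).ne') (sμ.diff z)]
        ring
      rw [abs_neg, abs_of_pos (by positivity), abs_of_pos (by positivity)] at this
      have t1 := mul_le_mul i1 ((gl l z).trans b3) (gn_nonneg _ _ _) zero_le_one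
      have t2 := mul_le_mul (pow_le_one₀ i0.le i1 (n := 2)) gμ (by positivity) zero_le_one
      nlinarith
    · have := gn_lin (u := p₁) m₁ fun i => show pd i p₁ z = 16 * μ z * pd i p z +
          16 * p z * pd i μ z by
        rw [hp, pd_const_mul, pd_mul (sμ.diff z) (H.smp.diff z)]
        ring
      rw [abs_of_pos (mul_pos (by norm_num) (μ0 z)), abs_of_pos (by positivity)] at this
      have t0 := mul_le_mul_of_nonneg_left this (l2 z).le
      have t1 := (mul_le_mul_of_nonneg_left (gl p z) lz.le).trans b4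
      have t2 := mul_le_mul_of_nonneg_left gμ' pz.le
      have t3 := mul_le_mul_of_nonneg_right a1 pz.le
      rw [← l1 z] at t1
      have e : p₁ z = 16 * (μ z * p z) := by rw [hp]
      nlinarith
    · have := gn_lin (u := G j) m₁ fun i => show pd i (G j) z = 8 * μ z * pd i (D j) z +
          8 * D j z * pd i μ z by
        simp only [hG]
        rw [pd_const_mul, pd_mul (sμ.diff z) ((H.smD j).diff z)]
        ring
      rw [abs_of_pos (mul_pos (by norm_num) (μ0 z)), abs_mul, abs_of_pos (by norm_num : (0 : ℝ) < 8)]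
        at this
      have d1 : |D j z| ≤ 1 / 4 := abs_le_of_sq_le_sq (by linarith [nsq_ge D z j, n1 z, q.2])
        (by norm_num)
      have t0 := mul_le_mul_of_nonneg_right d1 g0
      have t1 := (mul_le_mul_of_nonneg_left (gl (D j) z) lz.le).trans (b5 j).1
      have t2 := mul_le_mul_of_nonneg_left ((gl (D j) z).trans (b5 j).2) (μ0 z).le
      have t3 := mul_le_mul_of_nonneg_right a1 pz.le
      have t4 : 0 ≤ A / l z ^ 2 := by positivity
      have t5 := mul_le_mul_of_nonneg_left (one_le_pow₀ a1 (n := 2)) t4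
      have t6 := mul_le_mul_of_nonneg_left t5 (mul_pos (μ0 z) pz).le
      have t7 := mul_nonneg (mul_pos (μ0 z) pz).le t4
      have t8 := mul_le_mul_of_nonneg_left (show gn γ₁ (G j) z ≤ 8 * μ z * gn γ₁ (D j) z +
        2 * gn γ₁ μ z by linarith) (l2 z).le
      rw [← l1 z] at t1
      have e : p₁ z = 16 * (μ z * p z) := by rw [hp]
      rw [l4, e]
      exact ⟨by nlinarith, by nlinarith [εp z wz]⟩
  obtain ⟨G', sG', eG, hc⟩ := hC (A / 256) (by linarith [(le_max_left _ _).trans hA]) Z γ₁ β₁ l₁ p₁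
    G {z | 0 < α z} ⟨⟨m₁, c₁, sl, l2⟩, sp, p1, sG, isOpen_lt continuous_const H.smα.cont, cK, bd⟩ δ δ0
  refine ⟨G', sG', fun z q j => ?_, fun z q => ⟨8 * μ z, by linarith [(hμ z).1], fun j => ?_⟩, ?_⟩
  · obtain ⟨e1, e2⟩ := n2 z (by linarith)
    rw [eG z (.inr (by linarith)) j, hG, ← e1, mul_assoc]
  · rw [eG z (q.imp (fun q => not_lt.2 q) fun q => by linarith [n1 z]) j, hG, mul_assoc]
  have e1 : Cst γ ψ G' {z | w z ≤ 5 / 4 ∧ 1 / 2 ≤ α z} = Cst γ₁ ψ G' (K4 G {z | 0 < α z}) := by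
    unfold Cst
    rw [← P223D.abs_Jd_vol mγ m₁ cK.measurableSet]
    refine setIntegral_eq_of_subset_of_forall_sdiff_eq_zero ((isClosed_le cw continuous_const).inter
      (isClosed_le continuous_const H.smα.cont)).measurableSet
      (fun z q => ⟨by linarith [k1 z q], k2 z q⟩) fun z q => ?_
    have t : 4 < nsq G z := not_le.1 fun t => q.2 ⟨lt_of_lt_of_le (by norm_num) q.1.2, t⟩
    simp only [eG z (.inr (by linarith))]
    rw [prod_zero hψ hr (a := fun j => G j z) (lt_trans (by norm_num) t), zero_mul]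
  have e2 : Ms s T (A / 256) γ₁ (Rv γ₁ β₁) l₁ p₁ (K4 G {z | 0 < α z}) ≤
      16 ^ (k + 1) * Real.exp s * Ms s (T + 1) A γ V l p {z | w z ≤ 11 / 8} := by
    unfold Ms
    have := mγ.locFin
    have cF : Continuous fun z => 16 ^ (k + 1) * Real.exp s *
        (Ph s (T + 1) (V z - A / l z ^ 2) * p z ^ (k + 1)) := by
      have := H.cV
      have := H.smp.cont
      have : Continuous fun z => A / l z ^ 2 :=
        continuous_const.div (H.ok.sml.cont.pow 2) fun z => (pow_pos (lp z) 2).ne'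
      unfold Ph
      fun_prop
    have F0 : ∀ z, 0 ≤ 16 ^ (k + 1) * Real.exp s *
        (Ph s (T + 1) (V z - A / l z ^ 2) * p z ^ (k + 1)) := fun z =>
      mul_nonneg (by positivity) (mul_nonneg (ph_nn _ _ _) (pow_pos (H.p0 z) _).le)
    rw [← integral_const_mul, ← integral_indicator cK.measurableSet,
      ← integral_indicator H.cpt.measurableSet, iv]
    refine integral_mono_of_nonneg (.of_forall fun z => mul_nonneg (indicator_nonneg (fun z _ =>
      mul_nonneg (ph_nn _ _ _) (pow_pos (p1 z) _).le) z) (w_pos mγ u z).le)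
      ((integrable_indicator_iff H.cpt.measurableSet).2 (cF.continuousOn.integrableOn_compact H.cpt))
      (.of_forall fun z => ?_)
    beta_reduce
    by_cases q : z ∈ K4 G {z | 0 < α z}
    swap
    · rw [indicator_of_notMem q, zero_mul]
      exact indicator_nonneg (fun z _ => F0 z) z
    have wz : w z ≤ 11 / 8 := by linarith [k1 z q]
    rw [indicator_of_mem q, indicator_of_mem (show z ∈ {z | w z ≤ 11 / 8} from wz), l4]
    obtain ⟨a1, a2, -, -, a5⟩ := hμ z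
    obtain ⟨-, b1, b2, -⟩ := H.bd z wz
    rcases a5 (k1 z q) with t | ⟨t1, t2⟩
    · have t3 : A / l z ^ 2 * μ z ^ 2 ≤ A * (m * L) ^ 2 := by
        rw [div_mul_eq_mul_div, mul_div_assoc, ← div_pow]
        refine mul_le_mul_of_nonneg_left (pow_le_pow_left₀ (div_pos (μ0 z) (lp z)).le ?_ 2) A0
        rw [div_eq_mul_inv]
        exact mul_le_mul a2 (inv_le_of_inv_le₀ L0 b2) (inv_pos.2 (lp z)).le (by linarith)
      rw [ph_zero s0.le (by linarith [le_abs_self T]), zero_mul, zero_mul]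
      exact F0 z
    · have t3 := mul_le_mul_of_nonneg_right (ph_vol (T := T) (y := V z - A / l z ^ 2)
        (y' := Rv γ₁ β₁ z - A / l z ^ 2) s0 (GbH.one_le_ww mγ 1 u z) (by unfold lw at t2; linarith))
        (show 0 ≤ (16 * p z) ^ (k + 1) from (pow_pos (mul_pos (by norm_num) (H.p0 z)) _).le)
      simp only [hp, t1, one_pow, mul_one, one_mul]
      rw [mul_pow] at t3 ⊢
      linarith
  rw [e1, mul_assoc]
  exact hc.trans (add_le_add_left (mul_le_mul_of_nonneg_left e2 C0) _)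

/-- **ZC** -/
theorem zc {k : ℕ} (hC : CUBE (k + 2)) : ZC (k + 1) := zc' (Nat.le_add_left 1 k) hC

end Vale.Agent.P223Y
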