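import Vale.Agent.P223Y.Eqv

/-!
# P223Y: the Jacobian density in oriented charts
-/

open MeasureTheory Filter Topology Set
open scoped ContDiff
open Vale.Agent.P366.Stmt (E)
open Vale.Agent.P366M

noncomputable section

namespace Vale.Agent.P223Y

variable {n : ℕ} {X : Type} [Mf0 n X] {g : Fld n X} {e : Ch n X} {y : E n} {f : Fin n → X → ℝ}

theorem det_pd (he : e ∈ At X) (hf : ∀ k, DAt (f k) (e.symm y)) :
    (Matrix.of fun k i => P366.Stmt.pd i (loc e (f k)) y).det =
      (Matrix.of fun k i => pd i (f k) (e.symm y)).det * (J e y).det := by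
  rw [← Matrix.det_mul]
  congr 1
  ext k i
  rw [Matrix.of_apply, pd_rep he (hf k), Matrix.mul_apply]
  exact Finset.sum_congr rfl fun j _ => mul_comm _ _

/-- the density in an oriented chart -/
theorem dens_Jd (hg : Met g) (he : e ∈ At X) (ho : 0 < (J e y).det)
    (hf : ∀ k, DAt (f k) (e.symm y)) : P366Z.dens (rep e g) y * Jd g f (e.symm y) =
      (Matrix.of fun k i => P366.Stmt.pd i (loc e (f k)) y).det := by
  have := (Real.sqrt_pos.2 (hg.det_pos (e.symm y))).ne'
  rw [det_pd he hf, dens_rep, abs_of_pos ho, Jd]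
  field_simp

variable {Γ : Type} [Group Γ] [MulAction Γ X]

theorem Deck.J_pos (D : Deck X Γ) (x : X) (y : E n) : 0 < (J (ch x) y).det :=
  D.ori x _ y (mem_ch _)

theorem Deck.loc_Jd (D : Deck X Γ) (hg : Met g) (hf : ∀ k x, DAt (f k) x) (x : X) :
    loc (ch x) (Jd g f) = fun y => (Matrix.of fun k i =>
      P366.Stmt.pd i (loc (ch x) (f k)) y).det / P366Z.dens (rep (ch x) g) y := funext fun y => by
  rw [← dens_Jd hg (ch_mem x) (D.J_pos x y) fun k => hf k _, mul_div_cancel_left₀ _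
    ((hg.loc' x).dens_pos y).ne']
  rfl

theorem Deck.sm_Jd (D : Deck X Γ) (hg : Met g) (hf : ∀ k, Smooth (f k)) : Smooth (Jd g f) :=
  cd_of_cAt le_rfl fun x => by
    rw [CAt, D.loc_Jd hg fun k => (hf k).diff]
    refine ContDiffAt.div ?_ (hg.loc' x).sm_dens.contDiffAt ((hg.loc' x).dens_pos _).ne'
    simp only [Matrix.det_apply', Matrix.of_apply]
    exact ContDiffAt.sum fun σ _ => contDiffAt_const.mul (contDiffAt_prod fun i _ =>
      P366Z.contDiffAt_pd (hf _ _ (ch_mem x)).contDiffAt (by simp) _)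

/-- the sum of the integrals against the translates of the pieces of a weight -/
theorem Deck.sum_int (D : Deck X Γ) (hg : Met g) {I : Type} [Fintype I] {a : I → X → ℝ}
    (ha : ∀ i, Continuous (a i)) (hc : ∀ i, HasCompactSupport (a i))
    (hs : ∀ x, ∑ i, ∑ᶠ γ : Γ, a i (γ • x) = 1) {h : X → ℝ} (hh : Continuous h)
    (cs : HasCompactSupport h) :
    ∑ i, ∑ᶠ γ : Γ, ∫ x, a i (γ⁻¹ • x) * h x ∂vol g = ∫ x, h x ∂vol g := by
  have := hg.locFin
  have hS := D.fin_bdd (isCompact_iUnion fun i => (hc i).isCompact).isBounded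
    cs.isCompact.isBounded
  have h0 : ∀ i x γ, a i (γ⁻¹ • x) * h x ≠ 0 → γ ∈ hS.toFinset := fun i x γ k =>
    hS.mem_toFinset.2 ⟨γ⁻¹ • x, mem_iUnion.2 ⟨i, subset_tsupport _ (left_ne_zero_of_mul k)⟩, by
      rw [smul_inv_smul]; exact subset_tsupport _ (right_ne_zero_of_mul k)⟩
  have i1 : ∀ i (γ : Γ), Integrable (fun x => a i (γ⁻¹ • x) * h x) (vol g) := fun i γ =>
    (((ha i).comp (D.cont γ⁻¹)).mul hh).integrable_of_hasCompactSupport cs.mul_left
  have h1 : ∀ i, ∑ᶠ γ : Γ, ∫ x, a i (γ⁻¹ • x) * h x ∂vol g =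
      ∫ x, ∑ γ ∈ hS.toFinset, a i (γ⁻¹ • x) * h x ∂vol g := fun i => by
    rw [integral_finsetSum _ fun γ _ => i1 i γ]
    refine finsum_eq_sum_of_support_subset _ fun γ hγ => by_contra fun k => hγ ?_
    exact integral_eq_zero_of_ae (.of_forall fun x => by_contra fun k' => k (h0 i x γ k'))
  simp only [h1]
  rw [← integral_finsetSum _ fun i _ => integrable_finsetSum _ fun γ _ => i1 i γ]
  refine integral_congr_ae (.of_forall fun x => ?_)
  have h2 : ∀ i, ∑ γ ∈ hS.toFinset, a i (γ⁻¹ • x) * h x = (∑ᶠ γ : Γ, a i (γ • x)) * h x :=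
    fun i => by
      rw [← finsum_comp_equiv (Equiv.inv Γ), finsum_mul]
      exact (finsum_eq_sum_of_support_subset _ fun γ hγ => h0 i x γ hγ).symm
  simp only [h2]
  rw [← Finset.sum_mul, hs, one_mul]

end Vale.Agent.P223Y
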