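import Vale.Agent.P223.X.All
import Vale.Agent.P223Y.Defs

/-!
# P223Y: the simplicial volume is bounded by the values of the bounded cocycles
-/

open Vale.Agent.P223 Vale.Agent.P223.X Vale.Agent.P223.H

namespace Vale.Agent.P223Y

theorem svX_le {n : ℕ} {M X Γ I : Type} [TopologicalSpace M] [TopologicalSpace X] [Group Γ]
    [MulAction Γ X] [Fintype I] [T2Space X] [SimplyConnectedSpace X] [T2Space M]
    (C : Cov n M X Γ I) (hn : 1 ≤ n) (hinf : ∃ s : ℕ → X, MT.Dist Γ s) {χ : I → E n → ℝ}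
    (hχ : Part C χ) (P : PUX C Unit) {N : ℝ} (hN : ∀ F : (Fin (n + 1) → Γ) → ℝ, Coc F →
      |∑ᶠ l ∈ {l : Fin (n + 1) → Γ × Unit | (l 0).1 = 1}, P.wt χ l * F fun k => (l k).1| ≤ N) :
    svX C ≤ ENNReal.ofReal N := by
  classical
  have : ContinuousConstSMul Γ X := ⟨C.cont⟩
  refine ENNReal.le_of_forall_pos_le_add fun δ hδ _ => ?_
  obtain ⟨ι, _, P₀, q, S, hq, hinj, hvert, hfund⟩ := hb.fund n M X Γ I C χ hn hχ
  set T : Set (Fin (n + 1) → Γ × ι) := {l | (l 0).1 = 1} with hT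
  set z₀ := ∑ᶠ l ∈ T, Finsupp.single (C.π.comp (S l)) (P₀.wt χ l) with hz₀
  have hfin := hb.fin n M X Γ I C χ ι P₀
  let a : (Fin (n + 1) → Γ × ι) →₀ ℝ := Finsupp.onFinset hfin.toFinset
    (fun l => if (l 0).1 = 1 then P₀.wt χ l else 0) (by
      intro l hl
      rw [Set.Finite.mem_toFinset]
      by_cases h : (l 0).1 = 1
      · rw [if_pos h] at hl; exact ⟨h, hl⟩
      · rw [if_neg h] at hl; exact absurd rfl hl)
  have ha : ∀ l, a l = if (l 0).1 = 1 then P₀.wt χ l else 0 := fun l => rfl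
  have ha1 : ∀ l ∈ T, P₀.wt χ l = a l := fun l hl => (if_pos hl).symm
  have ha0 : ∀ l, l ∉ T → a l = 0 := fun l hl => if_neg hl
  have haw : ∀ l ∈ a.support, P₀.wt χ l ≠ 0 := by
    intro l hl h
    rw [Finsupp.mem_support_iff, ha, h, ite_self] at hl
    exact hl rfl
  have hz : z₀ = a.sum fun l r => Finsupp.single (C.π.comp (S l)) r :=
    Main.finsum_eq T _ a (fun l r => Finsupp.single (C.π.comp (S l)) r) ha0
      (fun l => Finsupp.single_zero _) fun l hl => by rw [ha1 l hl]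
  have key : ∀ c : H.Chain (n + 1) M →ₗ[ℝ] ℝ, (∀ σ, |c (Finsupp.single σ 1)| ≤ 1) →
      (∀ w, c (H.bd (n + 1) w) = 0) → |c z₀| ≤ N := by
    intro c hc1 hc
    obtain ⟨F, hF1, hFi, hFc, hF⟩ := hb.mt M X Γ C.π C.orb hinf n c hn hc1 hc
    have h1 := hF ι q (fun i j ⟨γ, h⟩ => (hq i j γ h).1) a S (fun l hl => hinj l (haw l hl))
      (fun l hl i => hvert l (haw l hl) i) (by rw [← hz]; exact hfund.1) (fun β hβ => by
        rw [← hb.cyc n M X Γ I C χ hn hχ ι P₀ β hβ]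
        exact (Main.finsum_eq T _ a
          (fun l r => r * ∑ i : Fin (n + 1), (-1 : ℝ) ^ (i : ℕ) * β (l ∘ i.succAbove)) ha0
          (fun l => zero_mul _) fun l hl => by rw [ha1 l hl]).symm)
    rw [hz, h1]
    have h2 := hb.form n M X Γ I C χ F hn hχ hFi hFc ι Unit P₀ P
    have h3 : (a.sum fun l r => r * F fun i => (l i).1) =
        ∑ᶠ l ∈ T, P₀.wt χ l * F fun k => (l k).1 :=
      (Main.finsum_eq T _ a (fun l r => r * F fun i => (l i).1) ha0 (fun l => zero_mul _)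
        fun l hl => by rw [ha1 l hl]).symm
    rw [h3, h2]
    exact hN F ⟨hF1, hFi, hFc⟩
  obtain ⟨w, hw⟩ := hb.dual M n z₀ N key δ hδ
  have h1 : svX C ≤ ENNReal.ofReal (H.l1 (z₀ + H.bd (n + 1) w)) :=
    iInf₂_le _ (Main.isFund_add hfund w)
  exact h1.trans ((ENNReal.ofReal_le_ofReal hw).trans
    (ENNReal.ofReal_add_le.trans_eq (by rw [ENNReal.ofReal_coe_nnreal])))

theorem finsum_cons {n : ℕ} {Γ : Type} [Group Γ] (f : (Fin (n + 1) → Γ × Unit) → ℝ) :
    ∑ᶠ l ∈ {l : Fin (n + 1) → Γ × Unit | (l 0).1 = 1}, f l =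
      ∑ᶠ l : Fin n → Γ, f fun k => ((Fin.cons 1 l : Fin (n + 1) → Γ) k, ()) := by
  rw [← finsum_mem_range]
  · refine finsum_mem_congr (Set.ext fun l => ?_) fun _ _ => rfl
    refine ⟨fun h => ⟨fun k => (l k.succ).1, funext fun k => ?_⟩, ?_⟩
    · refine Fin.cases ?_ (fun k => rfl) k
      exact Prod.ext h.symm rfl
    · rintro ⟨l, rfl⟩
      rfl
  · exact fun l l' h => funext fun k => congrArg Prod.fst (congrFun h k.succ)

end Vale.Agent.P223Y
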