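import Vale.Agent.P223R.Semi
import Vale.Agent.P366Q.G.Scf
import Vale.Agent.P366N.Mk0

/-!
# P223Y: the conformal change to scalar curvature at least `-1`
-/

open MeasureTheory Filter Topology Set
open scoped ContDiff
open Vale.Agent.P366M Vale.Agent.P366N
open Vale.Agent.P366Z (bb gam)

noncomputable section

namespace Vale.Agent.P223Y

variable {n : ℕ} {M : Type} [Mf0 n M] {g : Fld n M}

theorem exists_between {a b : M → ℝ} (ha : Continuous a) (hb : Continuous b)
    (h : ∀ x, a x < b x) : ∃ f : M → ℝ, Smooth f ∧ ∀ x, a x < f x ∧ f x < b x :=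
  glue_fun (t := fun x => Ioo (a x) (b x)) (fun _ => convex_Ioo _ _) fun x =>
    ⟨_, (ha.continuousAt.eventually_lt continuousAt_const (by linarith [h x] :
      a x < (a x + b x) / 2)).and (continuousAt_const.eventually_lt hb.continuousAt
      (by linarith [h x] : (a x + b x) / 2 < b x)), fun _ => (a x + b x) / 2,
      fun _ _ => cd_const.contDiffAt, fun _ hz => hz⟩

theorem integral_cf (hg : Met g) {u : M → ℝ} (hu : Smooth u) (h0 : ∀ x, 0 < u x) (f : M → ℝ) :
    ∫ x, f x ∂vol (cf u g) = ∫ x, f x * u x ^ (n * bb n) ∂vol g := by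
  let _ : Mf n M := { bg := g, bg_met := hg }
  rw [(hg.cf hu h0).integral_vol, hg.integral_vol]
  simp only [dens_cf (h0 _), mul_assoc]

theorem exists_pos (m : ℝ) (hm : 0 < m) : ∃ ψ : ℝ → ℝ, ContDiff ℝ ∞ ψ ∧ (∀ t, 0 < ψ t) ∧
    ∀ t, m ≤ t → ψ t = t := by
  refine ⟨fun t => m + Real.smoothTransition (2 * t / m - 1) * (t - m), by fun_prop, fun t => ?_,
    fun t ht => ?_⟩
  · have a := Real.smoothTransition.nonneg (2 * t / m - 1)
    have b := Real.smoothTransition.le_one (2 * t / m - 1)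
    beta_reduce
    rcases le_total t (m / 2) with k | k
    · rw [Real.smoothTransition.zero_of_nonpos (by
        rw [sub_nonpos, div_le_one hm]; linarith)]
      simpa using hm
    · nlinarith
  · beta_reduce
    rw [Real.smoothTransition.one_of_one_le (by
      rw [le_sub_iff_add_le, le_div_iff₀ hm]; linarith)]
    ring

/-- **the Yamabe step** -/
theorem yam [CompactSpace M] (hn : 3 ≤ n) (hg : Met g) {ε : ℝ} (hε : 0 < ε) :
    ∃ g' : Fld n M, Met g' ∧ (∀ x, -1 ≤ scal g' x) ∧
      ∫ _x, (1 : ℝ) ∂vol g' ≤ ∫ x, max 0 (-scal g x) ^ ((n : ℝ) / 2) ∂vol g + ε := by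
  have n3 : (3 : ℝ) ≤ n := by exact_mod_cast hn
  have hb : 0 < bb n := by unfold bb; exact div_pos two_pos (by linarith)
  have ha : 0 < 4 * gam n := by
    unfold gam; exact mul_pos four_pos (div_pos (by linarith) (by linarith))
  have cs : ∀ f : M → ℝ, HasCompactSupport f := fun f => HasCompactSupport.of_compactSpace f
  have I : ∀ {f : M → ℝ}, Continuous f → Integrable f (vol g) := fun hf =>
    hg.integrable_supp hf (cs _)
  set r : M → ℝ := fun x => max 0 (-scal g x) with hr
  have r0 : ∀ x, 0 ≤ r x := fun x => le_max_left _ _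
  have cr : Continuous r := continuous_const.max hg.sm_scal.cont.neg
  have cr' : Continuous fun x => r x ^ ((n : ℝ) / 2) :=
    cr.rpow_const fun _ => Or.inr (by positivity)
  set V := ∫ _x, (1 : ℝ) ∂vol g with hV
  have V0 : 0 ≤ V := integral_nonneg fun _ => zero_le_one
  obtain ⟨η, hη⟩ : ∃ η, η = ε / (V + 1) := ⟨_, rfl⟩
  have η0 : 0 < η := by rw [hη]; positivity
  obtain ⟨h, sh, hh⟩ := exists_between (b := fun x => (r x ^ ((n : ℝ) / 2) + η) ^ ((n : ℝ) / 2)⁻¹)
    cr ((cr'.add continuous_const).rpow_const fun _ => Or.inr (by positivity)) fun x =>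
      (Real.lt_rpow_inv_iff_of_pos (r0 x) (by have := r0 x; positivity) (by positivity)).2
        (lt_add_of_pos_right _ η0)
  have h0 : ∀ x, 0 < h x := fun x => (r0 x).trans_lt (hh x).1
  have h1 : ∀ x, h x ^ ((n : ℝ) / 2) ≤ r x ^ ((n : ℝ) / 2) + η := fun x =>
    ((Real.lt_rpow_inv_iff_of_pos (h0 x).le (by have := r0 x; positivity) (by positivity)).1
      (hh x).2).le
  obtain ⟨x₁, -, m1⟩ := isCompact_univ.exists_isMinOn univ_nonempty sh.cont.continuousOn
  obtain ⟨x₂, -, m2⟩ := isCompact_univ.exists_isMaxOn univ_nonempty sh.cont.continuousOn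
  have b0 : 0 < 2 * bb n := by positivity
  have e : ∀ x, (h x ^ (2 * bb n)⁻¹) ^ (2 * bb n) = h x := fun x =>
    Real.rpow_inv_rpow (h0 x).le b0.ne'
  have p1 : ∀ x, 0 < h x ^ (2 * bb n)⁻¹ := fun x => Real.rpow_pos_of_pos (h0 x) _
  have le : h x₁ ^ (2 * bb n)⁻¹ ≤ h x₂ ^ (2 * bb n)⁻¹ :=
    Real.rpow_le_rpow (h0 _).le (m1 (mem_univ _)) (by positivity)
  obtain ⟨ψ, s1, s2, s3⟩ := exists_pos _ (p1 x₁)
  obtain ⟨u, su, hu⟩ := P223R.semi (by omega) hg sh
    (φ := fun q => (ψ q.2 ^ (2 * bb n) - q.1) * q.2 / (4 * gam n))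
    (fun x t => ((((s1.contDiffAt.comp _ contDiffAt_snd).rpow_const_of_ne (s2 _).ne').sub
      contDiffAt_fst).mul contDiffAt_snd).div_const _)
    (u₁ := fun _ => h x₁ ^ (2 * bb n)⁻¹) (u₂ := fun _ => h x₂ ^ (2 * bb n)⁻¹) cd_const cd_const
    (fun _ => le) (fun x => by
      rw [lap_const, s3 _ le_rfl, e]
      exact div_nonpos_of_nonpos_of_nonneg (mul_nonpos_of_nonpos_of_nonneg
        (sub_nonpos.2 (m1 (mem_univ x))) (p1 _).le) ha.le)
    fun x => by
      rw [lap_const, s3 _ le, e]
      exact div_nonneg (mul_nonneg (sub_nonneg.2 (m2 (mem_univ x))) (p1 _).le) ha.le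
  have u0 : ∀ x, 0 < u x := fun x => (p1 x₁).trans_le (hu x).1.1
  have eq : ∀ x, 4 * gam n * lap g u x = (u x ^ (2 * bb n) - h x) * u x := fun x => by
    rw [(hu x).2, s3 _ (hu x).1.1, mul_div_cancel₀ _ ha.ne']
  refine ⟨cf u g, hg.cf su u0, fun x => ?_, ?_⟩
  · rw [hg.scal_cf hn su u0, cl, neg_mul, eq]
    have k : u x ^ (-(2 * bb n) - 1) * (u x ^ (2 * bb n) * u x) = 1 := by
      rw [← Real.rpow_add_one (u0 x).ne', ← Real.rpow_add (u0 x)]
      simp
    have k2 : 0 ≤ u x ^ (-(2 * bb n) - 1) * ((h x + scal g x) * u x) :=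
      mul_nonneg (Real.rpow_nonneg (u0 x).le _) (mul_nonneg (by
        linarith [(hh x).1, le_max_right 0 (-scal g x)]) (u0 x).le)
    linarith
  · rw [integral_cf hg su u0]
    simp only [one_mul]
    have cN : Continuous fun x => u x ^ (n * bb n) := (su.rpow u0 _).cont
    have ch : Continuous fun x => h x ^ ((n : ℝ) / 2) := (sh.rpow h0 _).cont
    have i1 := hg.ibp_lap' su.one.llip (cs _) su.two
    have i2 : 0 ≤ ∫ x, ip g u u x ∂vol g := integral_nonneg fun x => hg.ip_nonneg u x
    have pq : ((n : ℝ) / 2).HolderConjugate (n / (n - 2)) := by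
      rw [Real.holderConjugate_iff]
      refine ⟨by linarith, ?_⟩
      have : (n : ℝ) - 2 ≠ 0 := by linarith
      field_simp
      ring
    have i3 : ∀ x, 2 / n * u x ^ (n * bb n) ≤
        4 * gam n * (u x * lap g u x) + 2 / n * h x ^ ((n : ℝ) / 2) := fun x => by
      have y := Real.young_inequality_of_nonneg (h0 x).le (sq_nonneg (u x)) pq
      have k1 : (u x ^ 2) ^ ((n : ℝ) / (n - 2)) = u x ^ (n * bb n) := by
        rw [← Real.rpow_natCast, ← Real.rpow_mul (u0 x).le, bb]
        congr 1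
        push_cast
        ring
      have k2 : u x ^ (2 * bb n) * u x * u x = u x ^ (n * bb n) := by
        rw [← Real.rpow_add_one (u0 x).ne', ← Real.rpow_add_one (u0 x).ne', bb]
        congr 1
        have : (n : ℝ) - 2 ≠ 0 := by linarith
        field_simp
        ring
      have k3 : u x ^ (n * bb n) / (n / (n - 2)) = u x ^ (n * bb n) - 2 / n * u x ^ (n * bb n) := by
        have : (n : ℝ) - 2 ≠ 0 := by linarith
        field_simp
      have k4 : h x ^ ((n : ℝ) / 2) / (n / 2) = 2 / n * h x ^ ((n : ℝ) / 2) := by field_simp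
      rw [k1, k3, k4] at y
      have k5 := congrArg (· * u x) (eq x)
      linarith
    have c1 : Continuous fun x => u x * lap g u x := su.cont.mul (hg.sm_lap su).cont
    have i4 := integral_mono ((I cN).const_mul _) (((I c1).const_mul _).add ((I ch).const_mul _)) i3
    have i5 := integral_mono (I ch) ((I cr').add (I continuous_const)) h1
    simp only [Pi.add_apply] at i4 i5
    rw [integral_add ((I c1).const_mul _) ((I ch).const_mul _), integral_const_mul,
      integral_const_mul, integral_const_mul, i1] at i4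
    rw [integral_add (I cr') (I continuous_const), ← mul_one η, integral_const_mul] at i5
    have i6 : η * V ≤ ε := by
      rw [hη, div_mul_eq_mul_div, div_le_iff₀ (by positivity)]
      nlinarith
    have i7 : 2 / n * ∫ x, u x ^ (n * bb n) ∂vol g ≤ 2 / n * ∫ x, h x ^ ((n : ℝ) / 2) ∂vol g := by
      nlinarith
    have := le_of_mul_le_mul_left i7 (by positivity)
    linarith

end Vale.Agent.P223Y
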