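import Vale.Agent.P223Y.Mk
import Vale.Agent.P223Y.Jd
import Vale.Agent.P223Y.Sv
import Vale.Agent.P223Y.Yam

/-!
# P223Y: the question follows from `GOAL`
-/

open MeasureTheory Filter Topology Set WithLp Metric
open scoped ContDiff
open Vale.Agent.P366.Stmt (E)
open Vale.Agent.P366M Vale.Agent.P223.X Vale.Agent.P210B

noncomputable section

namespace Vale.Agent.P223Y

variable {n : ℕ} {M X Γ I : Type} [Group Γ] [MulAction Γ X] [Fintype I] [Mf0 n M] [Mf0 n X]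
  {C : Cov n M X Γ I} {χ : I → Fn n → ℝ} {g : Fld n M}

theorem cs_chi (hχ : Part C χ) (i : I) : HasCompactSupport (χ i) :=
  HasCompactSupport.intro (isCompact_closedBall 0 2) fun y hy =>
    hχ.supp i y (not_le.1 fun h => hy (mem_closedBall_zero_iff.2 h)).le

theorem cs_ex (hχ : Part C χ) (i : I) : HasCompactSupport (C.ex i (χ i)) :=
  HasCompactSupport.intro ((cs_chi hχ i).isCompact.image (C.emb i).continuous)
    fun _ => Bas3.ex_of_not_mem C

theorem ex_nn (hχ : Part C χ) (i : I) (x : X) : 0 ≤ C.ex i (χ i) x := by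
  unfold Cov.ex
  split_ifs
  exacts [hχ.nonneg _ _, le_rfl]

omit [Fintype I] in
theorem ex_off {h : Fn n → ℝ} {γ : Γ} {i : I} {x : X} (hx : x ∉ (eX C γ i).source) :
    C.ex i h (γ⁻¹ • x) = 0 := if_neg fun ⟨y, hy⟩ => hx ⟨y, by
      show γ • C.ψ i y = x
      rw [hy, smul_inv_smul]⟩

omit [Fintype I] in
theorem ex_on (h : Fn n → ℝ) (γ : Γ) (i : I) (y : E n) :
    C.ex i h (γ⁻¹ • (eX C γ i).symm y) = h y.ofLp := by
  show C.ex i h (γ⁻¹ • γ • C.ψ i y.ofLp) = _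
  rw [inv_smul_smul, ex_ψ]

namespace Ad

variable (a : Ad C)
include a

theorem deck [ProperSpace X] (iso : ∀ (γ : Γ) (x y : X), dist (γ • x) (γ • y) = dist x y) :
    Deck X Γ where
  eqv := a.eqv
  eqv' := a.eqv'
  iso := iso
  free := C.free
  fin x R := (properX C (isCompact_singleton (x := x)) (isCompact_closedBall x R)).subset
    fun _ h => ⟨x, rfl, h⟩
  coc := by
    obtain ⟨o⟩ : Nonempty X := inferInstance
    obtain ⟨R, hR⟩ := (isCompact_core C 1).isBounded.subset_closedBall o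
    refine ⟨o, R, fun x => ?_⟩
    obtain ⟨γ, i, y, hy, rfl⟩ := exists_chart C x
    exact ⟨γ, by rw [iso]; exact mem_closedBall'.1 (hR (mem_iUnion.2 ⟨i, y, hy.le, rfl⟩))⟩
  ori := a.ori

theorem sm_ex (hχ : Part C χ) (i : I) : Smooth (C.ex i (χ i)) :=
  a.smooth_iff.2 (Ck_ex C (hχ.smooth i) (cs_chi hχ i))

theorem wt (D : Deck X Γ) (hχ : Part C χ) : Wt Γ fun x => ∑ i, C.ex i (χ i) x where
  sm := CD.sum fun i _ => a.sm_ex hχ i
  cs := HasCompactSupport.intro (isCompact_iUnion fun i => (cs_ex hχ i).isCompact) fun x hx =>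
    Finset.sum_eq_zero fun i _ => image_eq_zero_of_notMem_tsupport fun h =>
      hx (mem_iUnion.2 ⟨i, h⟩)
  nn x := Finset.sum_nonneg fun i _ => ex_nn hχ i x
  sum x := by
    simp only [tl]
    rw [finsum_sum_comm, ← hχ.sum x]
    · exact Finset.sum_congr rfl fun i _ =>
        finsum_comp_equiv (Equiv.inv Γ) (f := fun γ => C.ex i (χ i) (γ • x))
    · exact fun i _ => (D.fin_tl (cs_ex hχ i) (Bornology.isBounded_singleton (x := x))).subset
        fun γ h => ⟨x, rfl, h⟩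

theorem int_wt [CompactSpace M] (hχ : Part C χ) (hg : Met g) :
    ∫ x, ∑ i, C.ex i (χ i) x ∂vol (fun x => g (C.π x)) = ∫ _x, (1 : ℝ) ∂vol g := by
  classical
  have hX := a.cm_pi.met hg
  let b : I → M → ℝ := fun i p => if p ∈ (eM C i).source then χ i (eM C i p).ofLp else 0
  have b1 : ∀ i y, b i ((eM C i).symm y) = χ i y.ofLp := fun i y => by
    simp only [b, if_pos (symm_mem (a.mM i) y), right_inv (a.mM i)]
  have b2 : ∀ i, ∀ p ∉ (eM C i).source, b i p = 0 := fun i p hp => if_neg hp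
  have b3 : ∀ p, ∑ i, b i p = 1 := fun p => by
    obtain ⟨x, rfl⟩ := C.surj p
    rw [← hχ.sum x]
    refine Finset.sum_congr rfl fun i _ => ?_
    by_cases h : C.π x ∈ (eM C i).source
    · obtain ⟨y, h⟩ := h
      obtain ⟨γ, rfl⟩ := (C.orb _ _).1 h
      rw [finsum_eq_single _ γ⁻¹, inv_smul_smul, ex_ψ, pi_smul]
      · exact b1 i (toLp 2 y)
      · intro γ' k
        have := ex_off (C := C) (h := χ i) (γ := γ'⁻¹) (i := i) (x := γ • C.ψ i y) fun k' =>
          k (inv_eq_iff_eq_inv.1 (sheet_eq C k' ⟨y, rfl⟩))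
        rwa [inv_inv] at this
    · rw [b2 i _ h]
      refine (finsum_eq_zero_of_forall_eq_zero fun γ => if_neg fun ⟨y, hy⟩ => h ⟨y, ?_⟩).symm
      show C.π (C.ψ i y) = _
      rw [hy, pi_smul]
  have off : ∀ i, ∀ x ∉ (eX C 1 i).source, C.ex i (χ i) x = 0 := fun i x hx => by
    simpa using ex_off (h := χ i) hx
  have on : ∀ i y, C.ex i (χ i) ((eX C 1 i).symm y) = χ i y.ofLp := fun i y => by
    simpa using ex_on (C := C) (χ i) 1 i y
  have rp : ∀ i, rep (eX C 1 i) (fun x => g (C.π x)) = rep (eM C i) g := fun i =>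
    a.cm_pi.rep' (a.mX 1 i) (fun y => (pi_smul C _ _).symm) g
  have i1 : ∀ i, Integrable (C.ex i (χ i)) (vol fun x => g (C.π x)) := fun i =>
    hX.integrable_supp (a.sm_ex hχ i).cont (cs_ex hχ i)
  have i2 : ∀ i, Integrable (b i) (vol g) := fun i => by
    have := (integrable_chart hX (a.mX 1 i) (off i)).1 (i1 i)
    rw [integrable_chart hg (a.mM i) (b2 i)]
    simpa only [rp, on, b1] using this
  rw [← integral_congr_ae (.of_forall b3), integral_finsetSum _ fun i _ => i1 i,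
    integral_finsetSum _ fun i _ => i2 i]
  refine Finset.sum_congr rfl fun i _ => ?_
  rw [integral_chart hX (a.mX 1 i) (off i), integral_chart hg (a.mM i) (b2 i)]
  simp only [rp, on, b1]

theorem wtX_eq (D : Deck X Γ) (hχ : Part C χ) {g : Fld n X} (hg : Met g)
    {f : Fin (n + 1) → X → ℝ} (hf : ∀ k, Smooth (f k)) (cs : HasCompactSupport (f 0)) :
    wtX C χ f = ∫ x, f 0 x * Jd g (fun k => f k.succ) x ∂vol g := by
  rw [← D.sum_int hg (fun i => (a.sm_ex hχ i).cont) (cs_ex hχ) hχ.sum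
    (h := fun x => f 0 x * Jd g (fun k => f k.succ) x)
    ((hf 0).cont.mul (D.sm_Jd hg fun k => hf _).cont) cs.mul_right]
  refine Finset.sum_congr rfl fun i _ => finsum_congr fun γ => ?_
  rw [integral_chart hg (a.mX γ i) fun x hx => by rw [ex_off hx, zero_mul], ← integral_of]
  refine integral_congr_ae (.of_forall fun y => ?_)
  have h := dens_Jd hg (a.mX γ i) (a.J_pos γ i y) (f := fun k => f k.succ) fun k => (hf _).diff _
  have h1 : ∀ k j, P366.Stmt.pd j (loc (eX C γ i) (f k)) y = P223.H.pd j (C.rep (f k) γ i) y.ofLp :=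
    fun k j => pd_of ((a.smooth_iff.1 (hf k) γ i).differentiable (by simp) _) j
  simp only [h1] at h
  simp only [ex_on, P223.H.jdet, ← h, smul_eq_mul]
  change _ * (f 0 ((eX C γ i).symm y) * _) = _
  ring

theorem sv_le [CompactSpace M] [SimplyConnectedSpace X] (hn : 1 ≤ n) {A : ℝ}
    (H : Deck X Γ → ∀ g : Fld n X, Riem g → (∀ (γ : Γ) x, g (γ • x) = g x) →
      (∀ x, -1 ≤ scal g x) → ∀ χ : X → ℝ, Wt Γ χ → ∀ F : (Fin (n + 1) → Γ) → ℝ, Coc F →
      |pair g χ F| ≤ A * ∫ x, χ x ∂vol g) (hg : Met g) (hs : ∀ p, -1 ≤ scal g p)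
    (hr : Riem fun x => g (C.π x)) (iso : ∀ (γ : Γ) (x y : X), dist (γ • x) (γ • y) = dist x y) :
    svX C ≤ ENNReal.ofReal (A * ∫ _x, (1 : ℝ) ∂vol g) := by
  have := hr.prop
  have D := a.deck iso
  obtain ⟨χ, hχ⟩ := hb.part n M X Γ I C
  have W := a.wt D hχ
  refine svX_le C hn (hu.inf n M X Γ I C hn) hχ ⟨fun _ x => ∑ i, C.ex i (χ i) x,
    fun _ γ i => (a.smooth_iff.1 W.sm γ i).of_le one_le_oo, fun _ => W.cs, fun x => by
      rw [Fintype.sum_unique]; exact W.sum x⟩ fun F hF => ?_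
  have k := H D _ hr (fun γ x => by rw [pi_smul]) (fun x => by rw [a.cm_pi.scal]; exact hs _) _ W
    F hF
  rw [a.int_wt hχ hg] at k
  rw [finsum_cons]
  refine le_of_eq_of_le (congrArg _ (finsum_congr fun l => ?_)) k
  congr 1
  refine (a.wtX_eq D hχ hr.met (f := fun k => tl ((Fin.cons 1 l : Fin (n + 1) → Γ) k)
    fun x => ∑ i, C.ex i (χ i) x) (fun k => D.smooth W.sm _) (D.cs W.cs _)).trans ?_
  simp only [Fin.cons_zero, Fin.cons_succ, tl_one]

end Ad

omit [Mf0 n X] in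
theorem sv_le' [m : Mf0 n X] {C : Cov n M X Γ I} (a : Ad C) [CompactSpace M]
    [sc : SimplyConnectedSpace X] (hn : 1 ≤ n) {A : ℝ}
    (H : ∀ [Mf0 n X], Deck X Γ → ∀ g : Fld n X, Riem g → (∀ (γ : Γ) x, g (γ • x) = g x) →
      (∀ x, -1 ≤ scal g x) → ∀ χ : X → ℝ, Wt Γ χ → ∀ F : (Fin (n + 1) → Γ) → ℝ, Coc F →
      |pair g χ F| ≤ A * ∫ x, χ x ∂vol g) (hg : Met g) (hs : ∀ p, -1 ≤ scal g p) :
    svX C ≤ ENNReal.ofReal (A * ∫ _x, (1 : ℝ) ∂vol g) := by
  have hX := a.cm_pi.met hg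
  have le : ∀ (γ : Γ) (x y : X), rd (fun x => g (C.π x)) (γ • x) (γ • y) ≤
      rd (fun x => g (C.π x)) x y := fun γ => rd_cm hX (a.eqv γ) fun x => by rw [pi_smul]
  have iso : ∀ (γ : Γ) (x y : X), rd (fun x => g (C.π x)) (γ • x) (γ • y) =
      rd (fun x => g (C.π x)) x y := fun γ x y => (le γ x y).antisymm (by
    simpa only [inv_smul_smul] using le γ⁻¹ (γ • x) (γ • y))
  have lc : LocallyCompactSpace X := inferInstance
  have hc := @complete_of X Γ _ _ (rdM hX) lc iso _ (isCompact_core C 1) fun x => by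
    obtain ⟨γ, i, y, hy, rfl⟩ := exists_chart C x
    exact ⟨γ⁻¹, mem_iUnion.2 ⟨i, y, hy.le, (inv_smul_smul _ _).symm⟩⟩
  exact @Ad.sv_le n M X Γ I _ _ _ _ (reM m hX) C g
    (@Ad.mk n M X Γ I _ _ _ (reM m hX) C a.mM a.mX a.cM a.cX) _ sc hn A (@H (reM m hX)) hg hs
    (riem_reM m hX hc) iso

theorem Ad.sv_IS (a : Ad C) [CompactSpace M] [SimplyConnectedSpace X] (hn : 3 ≤ n) {A : ℝ}
    (H : ∀ [Mf0 n X], Deck X Γ → ∀ g : Fld n X, Riem g → (∀ (γ : Γ) x, g (γ • x) = g x) →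
      (∀ x, -1 ≤ scal g x) → ∀ χ : X → ℝ, Wt Γ χ → ∀ F : (Fin (n + 1) → Γ) → ℝ, Coc F →
      |pair g χ F| ≤ A * ∫ x, χ x ∂vol g) {G : I → Fn n → Matrix (Fin n) (Fin n) ℝ}
    (hG : MetX C G) {ν : Measure M} (hν : VolM C G ν) :
    svX C ≤ ENNReal.ofReal (max A 1) * IS C G ν ((n : ℝ) / 2) := by
  have hg := a.met_gM hG
  have A0 : 0 < max A 1 := lt_max_of_lt_right one_pos
  have h1 : IS C G ν ((n : ℝ) / 2) =
      ENNReal.ofReal (∫ x, max 0 (-scal (gM C G) x) ^ ((n : ℝ) / 2) ∂vol (gM C G)) := by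
    have c : Continuous fun x => max 0 (-scal (gM C G) x) ^ ((n : ℝ) / 2) := (continuous_const.max
      hg.sm_scal.cont.neg).rpow_const fun _ => Or.inr (by positivity)
    rw [ofReal_integral_eq_lintegral_ofReal (hg.integrable_supp c
      (HasCompactSupport.of_compactSpace _)) (.of_forall fun x =>
        Real.rpow_nonneg (le_max_left _ _) _), a.vol_gM hG hν]
    simp only [a.scal_gM hG]
    rfl
  rw [h1, ← ENNReal.ofReal_mul A0.le]
  refine ENNReal.le_of_forall_pos_le_add fun δ hδ _ => ?_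
  obtain ⟨g', h2, h3, h4⟩ := yam hn hg (ε := δ / max A 1) (by positivity)
  rw [← ENNReal.ofReal_coe_nnreal]
  refine (sv_le' a (by omega) H h2 h3).trans ((ENNReal.ofReal_le_ofReal ?_).trans
    ENNReal.ofReal_add_le)
  have h5 : 0 ≤ ∫ _x, (1 : ℝ) ∂vol g' := integral_nonneg fun _ => zero_le_one
  have h6 := mul_le_mul (le_max_left A 1) h4 h5 A0.le
  rwa [mul_add, mul_div_cancel₀ _ A0.ne'] at h6

/-- **the question follows from `GOAL`** -/
theorem q1_of {n : ℕ} (hn : 3 ≤ n) (H : GOAL n) : Q1 n := by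
  obtain ⟨A, H⟩ := H
  refine ⟨max A 1, lt_max_of_lt_right one_pos, fun M _ _ _ _ _ _ c hc g μ hg hμ => ?_⟩
  obtain ⟨d⟩ := FinalM.exists_data hu (by omega) c hc
  have hG := (hu.met n M d.X d.Γ d.I c d.B d.C hc d.hCB).1 g hg
  have hν := hu.vol n M d.X d.Γ d.I c d.B d.C g μ hc d.hCB hg hμ
  let _ : MeasurableSpace d.X := borel _
  have : BorelSpace d.X := ⟨rfl⟩
  have : Countable d.Γ := (hb.vol n M d.X d.Γ d.I d.C _ hG).1
  refine (hu.sv n M d.X d.Γ d.I c d.B d.C hc d.hCB).trans ?_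
  rw [← FinalM.IS_eq hu hc d hg]
  let mM := (paM d.C).mf0
  let mX := (paX d.C).mf0
  have a : Ad d.C := ⟨fun i => mem_At ⟨i, rfl⟩, fun γ i => mem_At ⟨(γ, i), rfl⟩, fun _ => rfl,
    fun _ => rfl⟩
  exact a.sv_IS hn (H d.X d.Γ) hG hν

end Vale.Agent.P223Y
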