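import Vale.Agent.P223Y.Un
import Vale.Agent.P223W.Defs
import Vale.Agent.P210B.Smo

/-!
# P223Y: the first stage from the rounds
-/

open Filter Topology Set Metric
open scoped ContDiff
open Vale.Agent.P366M Vale.Agent.P210G
open Vale.Agent.P223F Vale.Agent.P223A Vale.Agent.P223B
open Vale.Agent.P210R (Dis En)
open Vale.Agent.P366H (DD DD_ge)

noncomputable section

namespace Vale.Agent.P223Y

section

variable {n : ℕ} {X : Type} [Mf0 n X] {Γ : Type} [Group Γ] [MulAction Γ X] (F : Fr Γ)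

/-- random distributions over the colours with supports in the translates of `S` -/
structure Ds (A : ℕ → Set F.Ω) (S : Set X) (m : ℕ) (K : ℕ → F.Ω → X → ℝ) : Prop where
  rn : ∀ j, Rn F (K j)
  dis : ∀ o, Dis (fun j => K j o) m
  sup : ∀ j o x, K j o x ≠ 0 → x ∈ Un Γ (A j) S o

/-- one round for a band coordinate `σ` -/
def One (g₀ : Fld n X) (D : Set X) (A : ℕ → Set F.Ω) (m : ℕ) (c C C' γ δ : ℝ) : Prop :=
  ∀ (σ : X → ℝ) (a : ℝ), Smooth σ → 1 ≤ a → (∀ x, ip g₀ σ σ x ≤ a) →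
    (∀ x, σ x < 1 → x ∈ D) → ∀ (g : F.Ω → Fld n X) (v : F.Ω → Fin n → X → ℝ)
    (Q : F.Ω → X → ℝ) (K : ℕ → F.Ω → X → ℝ) (B : ℝ), Gs F g₀ g v Q →
    Ds F A {x | σ x ≤ 1 / 2} m K → (∀ o x, En (g o) (fun j => K j o) m x ≤ B) →
    ∀ τ > (0 : ℝ), ∀ ε > (0 : ℝ), ∀ κ : ℝ, ∃ (g' : F.Ω → Fld n X) (v' : F.Ω → Fin n → X → ℝ)
      (Q' φ : F.Ω → X → ℝ) (K' : ℕ → F.Ω → X → ℝ), Gs F g₀ g' v' Q' ∧ Ds F A {x | σ x < 1} m K' ∧
      ∀ o x, φ o x ∈ Icc (0 : ℝ) 1 ∧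
        En (g' o) (fun j => K' j o) m x ≤ C / τ + En (g o) (fun j => K j o) m x ∧
        (φ o x ≤ 1 / 2 → En (g' o) (fun j => K' j o) m x ≤ C / τ) ∧
        Rv (g o) (v o) x - C' * τ * a ^ 2 - c * τ * En (g o) (fun j => K j o) m x ^ 2 +
          32 * c * τ * En (g' o) (fun j => K' j o) m x ^ 2 + κ * φ o x - ε +
          γ * (ld (g' o) x - ld (g o) x) + δ * (Q' o x - Q o x) ≤ Rv (g' o) (v' o) x

/-- the output of several levels -/
def Out (g₀ : Fld n X) (A : ℕ → Set F.Ω) (S : Set X) (m : ℕ) (γ δ e G : ℝ) (R : F.Ω → X → ℝ) :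
    Prop := ∃ E ≥ (0 : ℝ), ∀ κ : ℝ, ∃ (g' : F.Ω → Fld n X) (v' : F.Ω → Fin n → X → ℝ)
  (Q' φ : F.Ω → X → ℝ) (K' : ℕ → F.Ω → X → ℝ), Gs F g₀ g' v' Q' ∧ Ds F A S m K' ∧
    ∀ o x, φ o x ∈ Icc (0 : ℝ) 1 ∧ En (g' o) (fun j => K' j o) m x ≤ e + E ∧
      (φ o x ≤ 1 / 2 → En (g' o) (fun j => K' j o) m x ≤ e) ∧
      R o x + G * En (g' o) (fun j => K' j o) m x ^ 2 + κ * φ o x + γ * ld (g' o) x + δ * Q' o x ≤
        Rv (g' o) (v' o) x

variable {F} {g₀ : Fld n X} {D S S' : Set X} {A : ℕ → Set F.Ω} {m : ℕ} {c C C' γ δ E : ℝ}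
  {g : F.Ω → Fld n X} {v : F.Ω → Fin n → X → ℝ} {Q : F.Ω → X → ℝ} {K : ℕ → F.Ω → X → ℝ}

theorem Ds.mono (h : Ds F A S m K) (hS : S ⊆ S') : Ds F A S' m K :=
  ⟨h.rn, h.dis, fun j o x k => (h.sup j o x k).imp fun _ q => ⟨q.1, hS q.2⟩⟩

theorem levels (h : One F g₀ D A m c C C' γ δ) (C0 : 0 < C) (C1 : 0 < C') (hg : Gs F g₀ g v Q)
    (E0 : 0 ≤ E) (hE : ∀ o x, En (g o) (fun j => K j o) m x ≤ E) (L : ℕ) :
    ∀ (σ : X → ℝ) (a τ ε : ℝ), Smooth σ → 1 ≤ a → (∀ x, ip g₀ σ σ x ≤ a) →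
    (∀ x, σ x < 1 → x ∈ D) → 0 < τ → 0 < ε → Ds F A {x | σ x ≤ 0} m K →
    Out F g₀ A {x | σ x < 1} m γ δ (C / τ) (32 * c * τ) fun o x => Rv (g o) (v o) x -
      γ * ld (g o) x - δ * Q o x - 2 * C' * τ * a ^ 2 -
      c * τ / 32 ^ L * En (g o) (fun j => K j o) m x ^ 2 - ε := by
  induction L with
  | zero =>
    intro σ a τ ε hσ ha hy hD τ0 ε0 hK
    refine ⟨E, E0, fun κ => ?_⟩
    obtain ⟨g', v', Q', φ, K', h1, h2, h3⟩ := h σ a hσ ha hy hD g v Q K E hg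
      (hK.mono fun x (hx : σ x ≤ 0) => show σ x ≤ _ by linarith) hE τ τ0 ε ε0 κ
    refine ⟨g', v', Q', φ, K', h1, h2, fun o x => ⟨(h3 o x).1, by linarith [(h3 o x).2.1, hE o x],
      (h3 o x).2.2.1, ?_⟩⟩
    have := mul_nonneg (mul_pos C1 τ0).le (sq_nonneg a)
    simp only [pow_zero, div_one]
    linarith [(h3 o x).2.2.2]
  | succ L ih =>
    intro σ a τ ε hσ ha hy hD τ0 ε0 hK
    obtain ⟨E₁, E1, h0⟩ := ih (fun x => 2 * σ x + 0) (4 * a) (τ / 32) (ε / 2)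
      ((cd_const.mul hσ).add cd_const) (by linarith)
      (fun x => by rw [P210S.ip_affine]; linarith [hy x]) (fun x hx => hD x (by linarith))
      (by positivity) (by positivity)
      (hK.mono fun x (hx : σ x ≤ 0) => show 2 * σ x + 0 ≤ 0 by linarith)
    obtain ⟨g₁, v₁, Q₁, φ₁, K₁, k1, k2, k3⟩ := h0 0
    refine ⟨C / (τ / 32) + E₁, by positivity, fun κ => ?_⟩
    obtain ⟨g', v', Q', φ, K', h1, h2, h3⟩ := h σ a hσ ha hy hD g₁ v₁ Q₁ K₁ _ k1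
      (k2.mono fun x (hx : 2 * σ x + 0 < 1) => show σ x ≤ _ by linarith)
      (fun o x => (k3 o x).2.1) τ τ0 (ε / 2) (by positivity) κ
    refine ⟨g', v', Q', φ, K', h1, h2, fun o x => ⟨(h3 o x).1,
      by linarith [(h3 o x).2.1, (k3 o x).2.1], (h3 o x).2.2.1, ?_⟩⟩
    have e1 := (k3 o x).2.2.2
    have e2 := (h3 o x).2.2.2
    have e3 : c * (τ / 32) / 32 ^ L = c * τ / 32 ^ (L + 1) := by rw [pow_succ]; field_simp
    simp only [e3] at e1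
    linarith

end

/-- **the first stage from the rounds for band coordinates** -/
theorem st1_of_one {n : ℕ} {c C C' γ δ : ℝ} (c0 : 0 < c) (C0 : 0 < C) (C1 : 0 < C') (γ0 : 0 < γ)
    (δ0 : 0 < δ) (δ1 : δ ≤ 1 / 2) (h : ∀ (X Γ : Type) [Mf0 n X] [Group Γ] [MulAction Γ X]
      (g₀ : Fld n X) (χ : X → ℝ), Geo Γ g₀ χ → ∀ (F : Fr Γ) (D K₀ : Set X) (ϱ : X → ℝ) (m : ℕ)
      (e : F.Ω → ℕ), IsCompact D → IsCompact K₀ → K₀ ⊆ interior D → Smooth ϱ →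
      (∀ x, ip g₀ ϱ ϱ x ≤ 1) → (∀ x ∉ K₀, 4 ≤ ϱ x) → IsLocallyConstant e →
      (∀ j, Sep Γ {o | e o = j} D) →
      One F g₀ {x | ϱ x ≤ 0} (fun j => {o | e o = j}) m c C C' γ δ) : ST1 n := by
  have d1 := DD_ge
  refine ⟨γ, γ0, fun e₀ e0 => ?_⟩
  obtain ⟨τ, hτ⟩ : ∃ τ, τ = 18 * DD ^ 2 * C / e₀ := ⟨_, rfl⟩
  have τ0 : 0 < τ := by rw [hτ]; positivity
  refine ⟨3 + 32 * C' * τ, fun X Γ _ _ _ g₀ χ G hs F => ⟨δ, δ0, δ1, ?_⟩⟩
  have := G.riem.prop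
  have d := G.deck
  obtain ⟨p⟩ : Nonempty X := inferInstance
  obtain ⟨R, hR⟩ := G.wt.cs.isCompact.isBounded.subset_closedBall p
  obtain ⟨ρ, sρ, r1, r2⟩ := G.riem.smooth_dist p one_pos
  have KD : closedBall p (R + 11) ⊆ interior (closedBall p (R + 12)) :=
    (closedBall_subset_ball (by linarith)).trans ball_subset_interior_closedBall
  have sb : {x | 1 * ρ x + -(R + 1) < 1} ⊆ closedBall p (R + 11) :=
    fun x (k : 1 * ρ x + -(R + 1) < 1) => mem_closedBall.2 (by linarith [(abs_le.1 (r1 x)).1])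
  obtain ⟨m, e, lc, he⟩ := colour d F (isCompact_closedBall p (R + 12))
  have lc' : IsLocallyConstant fun o => (e o : ℕ) := lc.comp _
  have sep : ∀ j : ℕ, Sep Γ {o | (e o : ℕ) = j} (closedBall p (R + 12)) :=
    fun j γ o a x b (k : (e (γ • o) : ℕ) = j) =>
      (he (e o)).2 γ o rfl x b (Fin.ext (k.trans (Eq.symm a)))
  obtain ⟨K, E, E0, k1, k2, k3, k4⟩ := first G lc' fun o => (e o).2
  obtain ⟨L, hL⟩ := pow_unbounded_of_one_lt (c * τ * E ^ 2) (show (1 : ℝ) < 32 by norm_num)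
  obtain ⟨E', E1, H⟩ := levels (h X Γ g₀ χ G F _ _ (fun x => 1 / 2 * ρ x + -(R / 2 + 1)) m _
    (isCompact_closedBall p (R + 12)) (isCompact_closedBall p (R + 11)) KD
    ((cd_const.mul sρ).add cd_const) (fun x => by
      rw [P210S.ip_affine, ← G.riem.met.gn_sq]; nlinarith [r2 x, gn_nonneg g₀ ρ x])
    (fun x k => by linarith [(abs_le.1 (r1 x)).1, not_le.1 (mem_closedBall.not.1 k)]) lc' sep) C0 C1 (g := fun _ => g₀) (v := fun _ _ _ => 0) (Q := fun _ _ => 0)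
    ⟨⟨rn_const G.inv, rn_const fun _ _ => rfl, fun _ => G.riem.met, fun _ => by
      simpa using CC.sum (s := (∅ : Finset Unit)) (w := fun _ _ _ => 0) (by simp)⟩, ⟨rn_const fun _ _ => rfl, fun _ => cd_const⟩,
      fun _ => .base⟩ E0 k4 L (fun x => 1 * ρ x + -(R + 1)) 4 τ 1
    ((cd_const.mul sρ).add cd_const) (by norm_num) (fun x => by
      rw [P210S.ip_affine, ← G.riem.met.gn_sq]; nlinarith [r2 x, gn_nonneg g₀ ρ x])
    (fun x k => show 1 / 2 * ρ x + -(R / 2 + 1) ≤ 0 by linarith) τ0 one_pos (Ds.mono ⟨fun j => (k1 j).toRn, k2, k3⟩ fun x k =>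
      show 1 * ρ x + -(R + 1) ≤ 0 by linarith [(abs_le.1 (r1 x)).2, mem_closedBall.1 (hR k)])
  refine ⟨_, isCompact_closedBall p (R + 11), 36 * DD ^ 2 * E', fun κ => ?_⟩
  obtain ⟨g, v, Q, φ, K', h1, h2, h3⟩ := H κ
  obtain ⟨b, b1, b2⟩ := unit_of d (isCompact_closedBall p (R + 11)) KD lc' sep (fun o => (e o).2)
    h1.rg h1.met h2.rn h2.dis (h2.mono sb).sup
  refine ⟨g, v, Q, b, φ, h1, b1, fun o x => ⟨(h3 o x).1, (b2 o x).trans ?_, ?_⟩⟩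
  · have e1 : 18 * DD ^ 2 * (C / τ) = e₀ := by rw [hτ]; field_simp
    have e2 : 0 ≤ DD ^ 2 * E' := by positivity
    rcases le_total (φ o x) (1 / 2) with q | q
    · nlinarith [mul_le_mul_of_nonneg_left ((h3 o x).2.2.1 q) (show 0 ≤ 18 * DD ^ 2 by positivity),
        mul_nonneg e2 (h3 o x).1.1]
    · nlinarith [mul_le_mul_of_nonneg_left (h3 o x).2.1 (show 0 ≤ 18 * DD ^ 2 by positivity),
        mul_le_mul_of_nonneg_left q e2]
  have e1 := (h3 o x).2.2.2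
  have e2 : 0 ≤ 32 * c * τ * En (g o) (fun j => K' j o) m x ^ 2 := by positivity
  have e3 : c * τ / 32 ^ L * En g₀ (fun j => K j o) m x ^ 2 ≤ 1 := by
    rw [div_mul_eq_mul_div, div_le_one (by positivity)]
    refine le_trans (mul_le_mul_of_nonneg_left (pow_le_pow_left₀ (Finset.sum_nonneg fun j _ =>
      div_nonneg (G.riem.met.ip_nonneg _ _) (mul_nonneg (by norm_num) ((k2 o).nn j x))) (k4 o x) 2)
      (by positivity)) hL.le
  simp only [Rv_zero] at e1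
  linarith [hs x]

/-- **ST1** -/
theorem st1 {n : ℕ} (hF : P223W.FST n) (h : P223W.RND n) : ST1 n := by
  obtain ⟨c, c0, C, C0, θ, θ0, δ, δ0, δ1, h⟩ := h
  obtain ⟨C₂, C2, hF⟩ := hF
  obtain ⟨C₁, C1, hp⟩ := P210S.exists_pot (w := θ / C₂) (by positivity)
  refine st1_of_one (C' := C * (512 * C₁ + 1)) c0 C0 (by positivity) one_pos δ0 δ1
    fun X Γ _ _ _ g₀ χ G F D K₀ ϱ m e hD hK₀ KD sϱ gϱ oϱ lc sep σ a hσ ha hy sD g v Q K B hg hK hB
      τ τ0 ε ε0 κ => ?_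
  have P := hp n X g₀ Unit (fun _ x => 4 * σ x + -2) (fun _ => 16 * a) (16 * a) G.riem.met
    (fun _ => (cd_const.mul hσ).add cd_const) cd_const (by positivity) (fun _ => by positivity)
    fun _ x => by rw [P210S.ip_affine]; linarith [hy x]
  have u1 : ∀ x ∈ {x | 4 * σ x + -2 < 1}, ϱ x ≤ 0 := fun x (k : 4 * σ x + -2 < 1) =>
    sD x (by linarith)
  have u2 : {x | 4 * σ x + -2 < 1} ⊆ K₀ := fun x k => by_contra fun q => by
    linarith [u1 x k, oϱ x q]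
  have u3 := u2.trans (KD.trans interior_subset)
  obtain ⟨g', v', Q', φ, K', h1, h2, h3, h4⟩ := h X Γ G.deck F g₀ _
    (fun j => Un Γ {o | e o = j} {x | 4 * σ x + -2 < 1}) (fun j => P223W.sp {o | e o = j}
      {x | 4 * σ x + -2 < 1} fun x => 16 * a * P210S.Gp (4 * σ x + -2) ^ 2) K m g v Q B τ ε κ
    G.riem.met (P.l0 (Classical.arbitrary X))
    (fun j o x _ => Sg_nonneg (fun o x => indicator_nonneg (fun _ _ => by positivity) _) o x)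
    (fun j _ => mul_div_cancel₀ θ (show C₂ ≠ 0 by positivity) ▸ hF X Γ G.deck F g₀ D K₀ _ _ ϱ _ _ _
      G.riem.met G.inv hD hK₀ u2 KD sϱ gϱ u1 oϱ (by positivity) P (lc.isClopen_fiber j) (sep j))
    hg ⟨hK.rn, hK.dis⟩ (fun j o x k => by
      obtain ⟨γ, p, (q : σ _ ≤ 1 / 2)⟩ := hK.sup j o x k
      have t : 4 * σ (γ⁻¹ • x) + -2 < 1 := by linarith
      refine ⟨⟨γ, p, t⟩, le_of_eq (finsum_eq_zero_of_forall_eq_zero (α := Γ) fun γ' => ?_)⟩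
      rw [lb, indicator_apply_eq_zero]
      intro r
      simp only [(sep j).eq r.1 (u3 r.2) p (u3 t)]
      rw [P210S.Gp_zero (by linarith)]
      ring) hB τ0 ε0
  refine ⟨g', v', Q', φ, K', h1, ⟨h2.rn, h2.dis, fun j o x k => (h3 j o x k).imp fun γ q =>
    ⟨q.1, show σ _ < 1 by linarith [show 4 * σ _ + -2 < 1 from q.2]⟩⟩, fun o x => ?_⟩
  obtain ⟨k1, k2, k3, k4⟩ := h4 o x _ _ rfl rfl
  have e : P210S.Lm (16 * a) (16 * a) = 512 * a ^ 2 := by unfold P210S.Lm; field_simp; norm_num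
  rw [e] at k4
  exact ⟨k1, k2, k3, by
    nlinarith [mul_le_mul_of_nonneg_left (one_le_pow₀ ha (n := 2)) (mul_pos C0 τ0).le]⟩

end Vale.Agent.P223Y
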