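import Vale.Agent.P223.X.Basic
import Vale.Agent.P366M.Vol
import Mathlib.Topology.Metrizable.Urysohn

/-!
# P223Y: from coordinates in `Fin n → ℝ` to Euclidean coordinates; atlases
-/

open MeasureTheory Filter Topology Set WithLp
open scoped ContDiff
open Vale.Agent.P366.Stmt (E)
open Vale.Agent.P366M

noncomputable section

namespace Vale.Agent.P223Y

variable {n : ℕ}

/-- the coordinate space of the starting library -/
abbrev Fn (n : ℕ) := Fin n → ℝ

theorem cd_of {m : WithTop ℕ∞} : ContDiff ℝ m (ofLp : E n → Fn n) :=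
  (PiLp.continuousLinearEquiv 2 ℝ fun _ : Fin n => ℝ).contDiff

theorem cd_to {m : WithTop ℕ∞} : ContDiff ℝ m (toLp 2 : Fn n → E n) :=
  (PiLp.continuousLinearEquiv 2 ℝ fun _ : Fin n => ℝ).symm.contDiff

theorem pd_of {f : Fn n → ℝ} {y : E n} (hf : DifferentiableAt ℝ f y.ofLp) (i : Fin n) :
    P366.Stmt.pd i (fun z => f z.ofLp) y = P223.H.pd i f y.ofLp := by
  rw [P223.H.pd, ← hf.lineDeriv_eq_fderiv]
  simp [P366.Stmt.pd, lineDeriv]

theorem scal_of {G : Fn n → Matrix (Fin n) (Fin n) ℝ} (h1 : ∀ i j, ContDiff ℝ ∞ fun x => G x i j)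
    (h2 : ∀ x, (G x).PosDef) (y : E n) :
    P366.Stmt.scal (fun z => G z.ofLp) y = P223.H.scal G y.ofLp := by
  have e : ∀ k i j, P366.Stmt.chr (fun z : E n => G z.ofLp) k i j =
      fun z => P223.H.chr G z.ofLp k i j := fun k i j => funext fun z => by
    simp only [P366.Stmt.chr, P223.H.chr, ← pd_of ((h1 _ _).differentiable (by simp) _)]
    rw [div_eq_inv_mul, one_div]
    rfl
  simp only [P366.Stmt.scal, P223.H.scal, P223.H.ric, e, Finset.sum_add_distrib,
    ← pd_of ((P223.X.Bas2.sm_chr h1 h2 _ _ _).differentiable (by simp) _)]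
  rfl

theorem jac_of {t : Fn n → Fn n} {y : E n} (ht : DifferentiableAt ℝ t y.ofLp) (k l : Fin n) :
    jac (fun z : E n => toLp 2 (t z.ofLp)) y k l = fderiv ℝ t y.ofLp (Pi.single l 1) k := by
  have h := pd_of (f := fun z => t z k) (differentiableAt_pi.1 ht k) l
  rw [P223.H.pd, fderiv_apply ht] at h
  exact h

theorem det_of {t : Fn n → Fn n} {y : E n} (ht : DifferentiableAt ℝ t y.ofLp) :
    (jac (fun z : E n => toLp 2 (t z.ofLp)) y).det = (fderiv ℝ t y.ofLp).det := by
  rw [ContinuousLinearMap.det, ← LinearMap.det_toMatrix']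
  congr 1
  ext k l
  rw [jac_of ht, LinearMap.toMatrix'_apply]
  rfl

theorem me_of : MeasurableEmbedding (ofLp : E n → Fn n) :=
  (PiLp.homeomorph 2 fun _ : Fin n => ℝ).measurableEmbedding

theorem integral_of (f : Fn n → ℝ) : ∫ y : E n, f y.ofLp = ∫ y, f y :=
  (PiLp.volume_preserving_ofLp (Fin n)).integral_comp me_of f

variable {Z : Type} [TopologicalSpace Z]

/-- the chart of an open embedding -/
def chOf (b : Fn n → Z) (hb : IsOpenEmbedding b) (a : Z → Fn n) (ha : ∀ y, a (b y) = y) :
    Ch n Z where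
  toFun p := toLp 2 (a p)
  invFun y := b y.ofLp
  source := range b
  target := univ
  map_source' _ _ := mem_univ _
  map_target' _ _ := mem_range_self _
  left_inv' := by rintro _ ⟨y, rfl⟩; rw [ha]
  right_inv' y _ := by rw [ha]
  open_source := hb.isOpen_range
  open_target := isOpen_univ
  continuousOn_toFun := (cd_to (m := 0)).continuous.comp_continuousOn
    (hb.isInducing.continuousOn_iff.2 (continuousOn_id.congr <| by
      rintro _ ⟨y, rfl⟩
      exact congrArg b (ha y)))
  continuousOn_invFun := (hb.continuous.comp (cd_of (m := 0)).continuous).continuousOn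

/-- an atlas of charts onto Euclidean space, with preferred charts -/
structure Pa (n : ℕ) (Z ι : Type) [TopologicalSpace Z] where
  c : ι → Ch n Z
  s : Z → ι
  tgt : ∀ i, (c i).target = univ
  src : ∀ z, z ∈ (c (s z)).source
  trans : ∀ i j y, (c i).symm y ∈ (c j).source → ContDiffAt ℝ ∞ (fun z => c j ((c i).symm z)) y

variable {ι : Type} (P : Pa n Z ι)

/-- the charted space -/
@[reducible] def Pa.cs : ChartedSpace (E n) Z where
  atlas := range P.c
  chartAt z := P.c (P.s z)
  mem_chart_source := P.src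
  chart_mem_atlas _ := mem_range_self _

include P in
theorem Pa.sc [Countable ι] : SecondCountableTopology Z :=
  have := fun i => (P.c i).secondCountableTopology_source
  TopologicalSpace.secondCountableTopology_of_countable_cover (fun i => (P.c i).open_source)
    (eq_univ_of_forall fun z => mem_iUnion.2 ⟨_, P.src z⟩)

include P in
theorem Pa.metr [Countable ι] [T2Space Z] : TopologicalSpace.MetrizableSpace Z := by
  have := P.sc
  let _ := P.cs
  have := ChartedSpace.locallyCompactSpace (E n) Z
  infer_instance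

/-- the manifold -/
@[reducible] def Pa.mf0 [Countable ι] [T2Space Z] [ne : Nonempty Z] [ms : MeasurableSpace Z]
    [bor : BorelSpace Z] : Mf0 n Z where
  toMetricSpace := @TopologicalSpace.metrizableSpaceMetric Z _ P.metr
  toMeasurableSpace := ms
  toChartedSpace := P.cs
  bor := bor
  sc := P.sc
  ne := ne
  tgt := by rintro _ ⟨i, rfl⟩; exact P.tgt i
  trans := by rintro _ ⟨i, rfl⟩ _ ⟨j, rfl⟩; exact P.trans i j

end Vale.Agent.P223Y
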