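import Vale.Agent.P210B.Smo
import Vale.Agent.P223Y.Eqv

/-!
# P223Y: the Riemannian distance of a metric on a connected manifold
-/

open Filter Topology Set Metric
open scoped ContDiff

open Vale.Agent.P366.Stmt (E)
open Vale.Agent.P366M Vale.Agent.P210B
open Vale.Agent.P210.R2.H53

noncomputable section

namespace Vale.Agent.P223Y

variable {n : ℕ}

theorem qn_add {A : Matrix (Fin n) (Fin n) ℝ} (hA : A.PosDef) (v w : E n) :
    qn A (v + w) ≤ qn A v + qn A w := by
  refine abs_le_of_sq_le_sq' ?_ (add_nonneg (qn_nonneg _ _) (qn_nonneg _ _)) |>.2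
  have a := bil_le hA v w
  have b := bil_le hA w v
  rw [add_sq, qn_sq hA, qn_sq hA, qn_sq hA]
  simp only [PiLp.add_apply, mul_add, add_mul, Finset.sum_add_distrib]
  linarith

theorem qn_cont (A : Fin n → Fin n → ℝ) : Continuous (qn A) := by unfold qn; fun_prop

theorem qn_zero (A : Fin n → Fin n → ℝ) : qn A 0 = 0 := by simp [qn]

variable {X : Type} [Mf0 n X] {g : Fld n X} {e : Ch n X} {u f : X → ℝ}

/-- the differences of the values of the smooth functions with gradient at most one -/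
def Ls (g : Fld n X) (p q : X) : Set ℝ :=
  {t | ∃ u : X → ℝ, Smooth u ∧ (∀ x, gn g u x ≤ 1) ∧ t = u q - u p}

/-- the Riemannian distance -/
def rd (g : Fld n X) (p q : X) : ℝ := sSup (Ls g p q)

theorem seg_le (hg : Met g) (he : e ∈ At X) (y₀ : E n) {δ : ℝ} (hδ : 0 < δ) :
    ∃ r > (0 : ℝ), ∀ y ∈ ball y₀ r, ∀ z ∈ ball y₀ r, ∀ t ∈ Ls g (e.symm z) (e.symm y),
      t ≤ (1 + δ) * qn (rep e g y₀) (y - z) := by
  obtain ⟨r, hr, k⟩ := Metric.eventually_nhds_iff_ball.1 (near (hg.rep he) y₀ hδ)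
  refine ⟨r, hr, ?_⟩
  rintro y hy z hz _ ⟨u, h1, h2, rfl⟩
  have d : ∀ t : ℝ, HasDerivAt (fun t : ℝ => loc e u (z + t • (y - z)))
      (fderiv ℝ (loc e u) (z + t • (y - z)) (y - z)) t := fun t => by
    have := (((hasDerivAt_id t).smul_const (y - z)).const_add z)
    rw [one_smul] at this
    exact ((h1 e he).differentiable (by simp) _).hasFDerivAt.comp_hasDerivAt t this
  have := (convex_Icc (0 : ℝ) 1).image_sub_le_mul_sub_of_deriv_le
    (fun t _ => (d t).continuousAt.continuousWithinAt)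
    (fun t _ => (d t).differentiableAt.differentiableWithinAt)
    (C := (1 + δ) * qn (rep e g y₀) (y - z)) (fun t ht => by
      rw [(d t).deriv, P366Z.fderiv_eq_sum ((h1 e he).differentiable (by simp) _)]
      have a := dot_le ((hg.rep he).pos (z + t • (y - z)))
        (fun i => P366.Stmt.pd i (loc e u) (z + t • (y - z))) (y - z)
      have b : cn _ _ = _ := gn_rep he g (h1.diff (e.symm (z + t • (y - z))))
      rw [b] at a
      have c := (k _ ((convex_ball _ _).add_smul_sub_mem hz hy (interior_subset ht)) (y - z)).1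
      have c' := mul_le_of_le_one_left (qn_nonneg (rep e g (z + t • (y - z))) (y - z)) (h2
        (e.symm (z + t • (y - z))))
      exact (Finset.sum_congr rfl fun i _ => mul_comm _ _).trans_le (a.trans (c'.trans c)))
    0 (left_mem_Icc.2 zero_le_one) 1 (right_mem_Icc.2 zero_le_one) zero_le_one
  simpa [loc_apply] using this

theorem Ls_neg {p q : X} {t : ℝ} (h : t ∈ Ls g p q) : t ∈ Ls g q p := by
  obtain ⟨u, h1, h2, rfl⟩ := h
  exact ⟨fun x => -u x, h1.neg, fun x => by
    rw [gn_of_pd (s := -1) (u' := u) fun i => by rw [pd_neg, neg_one_mul]]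
    simpa using h2 x, by ring⟩

theorem Ls_ne (g : Fld n X) (p q : X) : (0 : ℝ) ∈ Ls g p q :=
  ⟨fun _ => 0, cd_const, fun x => by rw [gn_zero fun i => pd_const _ i x]; exact zero_le_one, by ring⟩

theorem rd_le {p q : X} {C : ℝ} (h : ∀ t ∈ Ls g p q, t ≤ C) : rd g p q ≤ C :=
  csSup_le ⟨_, Ls_ne g p q⟩ h

theorem rd_comm (g : Fld n X) (p q : X) : rd g p q = rd g q p :=
  congrArg sSup (Subset.antisymm (fun _ => Ls_neg) fun _ => Ls_neg)

theorem rd_up (hg : Met g) (he : e ∈ At X) (y₀ : E n) {δ : ℝ} (hδ : 0 < δ) :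
    ∃ r > (0 : ℝ), ∀ y ∈ ball y₀ r, ∀ z ∈ ball y₀ r,
      rd g (e.symm y) (e.symm z) ≤ (1 + δ) * qn (rep e g y₀) (y - z) := by
  obtain ⟨r, hr, k⟩ := seg_le hg he y₀ hδ
  exact ⟨r, hr, fun y hy z hz => rd_le fun t ht => k y hy z hz t (Ls_neg ht)⟩

variable [ConnectedSpace X]

theorem bdd_Ls (hg : Met g) (p q : X) : BddAbove (Ls g p q) := by
  refine @PreconnectedSpace.induction₂ _ _ _ (fun p q => BddAbove (Ls g p q))
    ⟨fun a b ⟨s, hs⟩ => ⟨s, fun _ h => hs (Ls_neg h)⟩⟩ (fun x => ?_)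
    ⟨fun a b c ⟨s, hs⟩ ⟨t, ht⟩ => ⟨s + t, ?_⟩⟩ p q
  · obtain ⟨r, hr, k⟩ := seg_le hg (ch_mem x) (pt x) one_pos
    refine ev_pt.2 ?_
    filter_upwards [ball_mem_nhds _ hr] with y hy
    have := k y hy _ (mem_ball_self hr)
    rw [symm_pt] at this
    exact ⟨_, this⟩
  · rintro _ ⟨u, h1, h2, rfl⟩
    linarith [hs ⟨u, h1, h2, rfl⟩, ht ⟨u, h1, h2, rfl⟩]

theorem le_rd (hg : Met g) (hu : Smooth u) (h : ∀ x, gn g u x ≤ 1) (p q : X) :
    u q - u p ≤ rd g p q := le_csSup (bdd_Ls hg p q) ⟨u, hu, h, rfl⟩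

theorem rd_nonneg (hg : Met g) (p q : X) : 0 ≤ rd g p q := le_csSup (bdd_Ls hg p q) (Ls_ne g p q)

theorem rd_self (hg : Met g) (p : X) : rd g p p = 0 :=
  le_antisymm (rd_le <| by rintro _ ⟨u, -, -, rfl⟩; simp) (rd_nonneg hg p p)

theorem rd_tri (hg : Met g) (p q r : X) : rd g p r ≤ rd g p q + rd g q r := rd_le <| by
  rintro _ ⟨u, h1, h2, rfl⟩
  linarith [le_rd hg h1 h2 p q, le_rd hg h1 h2 q r]

theorem rd_cm (hg : Met g) {Φ : X → X} (h : Cm Φ) (hi : ∀ x, g (Φ x) = g x) (p q : X) :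
    rd g (Φ p) (Φ q) ≤ rd g p q := rd_le <| by
  rintro _ ⟨u, h1, h2, rfl⟩
  refine le_rd hg (h.smooth h1) (fun x => ?_) p q
  have := congrFun (h.gn g u) x
  simp only [hi] at this
  exact this.trans_le (h2 _)

/-- continuous functions which are infinitesimally `1`-Lipschitz are `1`-Lipschitz -/
theorem rd_key (hg : Met g) (hf : Continuous f) (H : ∀ x, ∃ e ∈ At X, ∃ y₀, e.symm y₀ = x ∧
    ∀ δ > (0 : ℝ), ∃ r > (0 : ℝ), ∀ y ∈ ball y₀ r, ∀ z ∈ ball y₀ r,
      f (e.symm y) - f (e.symm z) ≤ (1 + δ) * qn (rep e g y₀) (y - z)) (p q : X) :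
    f q - f p ≤ rd g p q := by
  have key : ∀ ε > (0 : ℝ), f q - f p ≤ rd g p q + ε * (4 * rd g p q + 2) := fun ε hε => by
    wlog h1 : ε ≤ 1 generalizing ε
    · nlinarith [this 1 one_pos le_rfl, rd_nonneg hg p q]
    obtain ⟨ρ, h1, h2, h3⟩ := glue_gn (f := f) hg (K := fun _ => (1 + ε) * (1 + ε))
      (fun z => by positivity) (fun x => by
        obtain ⟨e, he, y₀, rfl, k1⟩ := H x
        obtain ⟨r, hr, k2⟩ := k1 ε hε
        obtain ⟨s, hs, k3⟩ := Metric.eventually_nhds_iff_ball.1 ((near (hg.rep he) y₀ hε).and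
          (ball_mem_nhds y₀ hr))
        refine ⟨e.symm '' ball y₀ (s / 2),
          (openEmb_symm he).isOpenMap.image_mem_nhds (ball_mem_nhds y₀ (half_pos hs)),
          fun η hη => ?_⟩
        obtain ⟨v, v1, v2⟩ := moll (cont_loc he hf) (A := rep e g y₀) (K := 1 + ε)
          (y₀ := y₀) (by positivity) (half_pos hs) (fun y hy z hz => by
            rw [mul_div_cancel₀ _ two_ne_zero] at hy hz
            exact k2 y (k3 y hy).2 z (k3 z hz).2) hη
        have e1 : loc e (fun z => v (e z)) = v := funext fun y => by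
          rw [loc_apply, right_inv he]
        refine ⟨fun z => v (e z), ?_⟩
        rintro _ ⟨y, hy, rfl⟩
        have w := k3 y (ball_subset_ball (half_le_self hs.le) hy)
        have c1 : CAt ∞ (fun z => v (e z)) (e.symm y) :=
          cAt_of_loc le_rfl he (by rw [e1]; exact v1.contDiffAt)
        refine ⟨c1, by beta_reduce; rw [right_inv he]; exact (v2 y hy).1, ?_⟩
        rw [← gn_rep he g (c1.differentiableAt (by simp)), e1]
        refine cn_le ((hg.rep he).pos y) (by positivity) fun t => ?_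
        have b := (v2 y hy).2 t
        rw [P366Z.fderiv_eq_sum (v1.differentiable (by simp) y)] at b
        rw [mul_assoc]
        exact (Finset.sum_congr rfl fun i _ => mul_comm _ _).trans_le
          (b.trans (mul_le_mul_of_nonneg_left (w.1 t).2 (by positivity)))) hε
    have p0 : 0 < 1 + 4 * ε := by positivity
    have := le_rd hg (u := fun x => (1 + 4 * ε)⁻¹ * ρ x) (cd_const.mul h1) (fun x => by
      rw [gn_of_pd fun i => pd_const_mul _ i, abs_of_pos (inv_pos.2 p0), inv_mul_le_iff₀ p0]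
      nlinarith [h3 x]) p q
    rw [← mul_sub, inv_mul_le_iff₀ p0] at this
    linarith [abs_le.1 (h2 p), abs_le.1 (h2 q)]
  refine le_of_forall_pos_le_add fun ε hε => ?_
  have h0 := rd_nonneg hg p q
  have := key (ε / (4 * rd g p q + 2)) (by positivity)
  rwa [div_mul_cancel₀ _ (by positivity)] at this

theorem rd_sep (hg : Met g) (he : e ∈ At X) (y₀ : E n) {δ s : ℝ} (hδ : 0 < δ) (hs : 0 < s) :
    ∃ T > (0 : ℝ), ∃ r > (0 : ℝ), ∀ z ∈ ball y₀ r,
      (∀ y, min (qn (rep e g y₀) (y - z)) T ≤ (1 + δ) * rd g (e.symm z) (e.symm y)) ∧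
      ∀ p ∉ e.symm '' closedBall y₀ s, T ≤ (1 + δ) * rd g (e.symm z) p := by
  classical
  obtain ⟨r, hr, k⟩ := Metric.eventually_nhds_iff_ball.1 ((near (hg.rep he) y₀ hδ).and
    (ball_mem_nhds y₀ hs))
  have hA := (hg.rep he).pos y₀
  obtain ⟨C, hC, c⟩ := norm_le_qn hA
  refine ⟨r / 4 / C, by positivity, r / 4, by positivity, fun z hz => ?_⟩
  set T := r / 4 / C with hT
  have T0 : 0 < T := by positivity
  have d0 : 0 < 1 + δ := by positivity
  let f : X → ℝ := fun p => (if p ∈ e.source then min (qn (rep e g y₀) (e p - z)) T else T) / (1 + δ)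
  have f1 : ∀ y, f (e.symm y) = min (qn (rep e g y₀) (y - z)) T / (1 + δ) := fun y => by
    simp only [f, if_pos (symm_mem he y), right_inv he]
  have f2 : ∀ p ∉ e.symm '' closedBall y₀ (r / 2), f p = T / (1 + δ) := fun p hp => by
    by_cases h : p ∈ e.source
    · simp only [f, if_pos h]
      rw [min_eq_right]
      rw [hT, div_le_iff₀' hC]
      refine le_trans ?_ (c _)
      by_contra a
      refine hp ⟨e p, ?_, e.left_inv h⟩
      rw [not_le, ← dist_eq_norm] at a
      rw [mem_ball] at hz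
      rw [mem_closedBall]
      linarith [dist_triangle (e p) z y₀]
    · simp only [f, if_neg h]
  have f3 : ∀ p ∉ e.symm '' closedBall y₀ (r / 2), ∀ᶠ q in 𝓝 p, f q = T / (1 + δ) := fun p hp =>
    (((isCompact_closedBall y₀ (r / 2)).image (cont_symm he)).isClosed.isOpen_compl.eventually_mem
      hp).mono f2
  have fc : Continuous f := continuous_iff_continuousAt.2 fun p => by
    by_cases hp : p ∈ e.symm '' closedBall y₀ (r / 2)
    · obtain ⟨w, -, rfl⟩ := hp
      rw [contAt_iff he, show loc e f = _ from funext f1]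
      exact ((((qn_cont _).comp (continuous_id.sub continuous_const)).min
        continuous_const).div_const _).continuousAt
    · exact continuousAt_const.congr (EventuallyEq.symm (f3 p hp))
  have key := rd_key hg fc (fun p => by
    by_cases hp : p ∈ e.symm '' closedBall y₀ (r / 2)
    · obtain ⟨w, hw, rfl⟩ := hp
      refine ⟨e, he, w, rfl, fun η hη => ⟨1, one_pos, fun a _ b _ => ?_⟩⟩
      rw [f1, f1, ← sub_div, div_le_iff₀' d0]
      have t1 := qn_add hA (a - b) (b - z)
      rw [sub_add_sub_cancel] at t1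
      have t2 := ((k w (closedBall_subset_ball (half_lt_self hr) hw)).1 (a - b)).2
      have t3 := qn_nonneg (rep e g w) (a - b)
      have t4 := qn_nonneg (rep e g y₀) (a - b)
      have t5 : min (qn (rep e g y₀) (a - z)) T - min (qn (rep e g y₀) (b - z)) T ≤
          qn (rep e g y₀) (a - b) := by
        have t1' : qn (rep e g y₀) (a - z) ≤ qn (rep e g y₀) (a - b) + qn (rep e g y₀) (b - z) := t1
        rcases min_cases (qn (rep e g y₀) (b - z)) T with h | h <;> rw [h.1] <;>
          linarith [min_le_left (qn (rep e g y₀) (a - z)) T, min_le_right (qn (rep e g y₀) (a - z)) T]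
      nlinarith [mul_nonneg (mul_nonneg d0.le hη.le) t3]
    · obtain ⟨r', hr', k'⟩ := Metric.eventually_nhds_iff_ball.1 (ev_pt.1 (f3 p hp))
      refine ⟨_, ch_mem p, pt p, symm_pt p, fun η hη => ⟨r', hr', fun a ha b hb => ?_⟩⟩
      rw [k' a ha, k' b hb, sub_self]
      exact mul_nonneg (by positivity) (qn_nonneg _ _)) (e.symm z)
  simp only [f1, sub_self, qn_zero, min_eq_left T0.le, zero_div, sub_zero] at key
  refine ⟨fun y => ?_, fun p hp => ?_⟩
  · rw [← div_le_iff₀' d0, ← f1]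
    exact key _
  · rw [← div_le_iff₀' d0, ← f2 p fun ⟨w, hw, h⟩ => hp ⟨w, ball_subset_closedBall
      (k w (closedBall_subset_ball (half_lt_self hr) hw)).2, h⟩]
    exact key _

theorem rd_lo (hg : Met g) (he : e ∈ At X) (y₀ : E n) {δ : ℝ} (hδ : 0 < δ) :
    ∃ r > (0 : ℝ), ∀ y ∈ ball y₀ r, ∀ z ∈ ball y₀ r,
      qn (rep e g y₀) (y - z) ≤ (1 + δ) * rd g (e.symm y) (e.symm z) := by
  obtain ⟨T, T0, r, hr, k⟩ := rd_sep hg he y₀ hδ one_pos
  obtain ⟨C, hC, c⟩ := qn_le_norm (rep e g y₀)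
  refine ⟨min r (T / C / 2), by positivity, fun y hy z hz => ?_⟩
  have := (k z (ball_subset_ball (min_le_left _ _) hz)).1 y
  rwa [min_eq_left, rd_comm] at this
  refine (c _).trans ?_
  rw [← le_div_iff₀' hC, ← dist_eq_norm]
  linarith [dist_triangle_right y z y₀, mem_ball.1 hy, mem_ball.1 hz, min_le_right r (T / C / 2)]

theorem rd_nhds (hg : Met g) {x : X} {U : Set X} (hU : U ∈ 𝓝 x) :
    ∃ ε > (0 : ℝ), ∀ p, rd g x p < ε → p ∈ U := by
  obtain ⟨s, hs, k⟩ := Metric.nhds_basis_closedBall.eventually_iff.1 (ev_pt.1 hU)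
  obtain ⟨T, T0, r, hr, k1⟩ := rd_sep hg (ch_mem x) (pt x) one_pos hs
  refine ⟨T / 2, by positivity, fun p hp => ?_⟩
  by_contra h
  have := (k1 _ (mem_ball_self hr)).2 p fun ⟨w, hw, e⟩ => h (e ▸ k hw)
  rw [symm_pt] at this
  linarith

omit [ConnectedSpace X] in
theorem rd_ev (hg : Met g) (x : X) {ε : ℝ} (hε : 0 < ε) : ∀ᶠ p in 𝓝 x, rd g x p < ε := by
  obtain ⟨r, hr, k⟩ := rd_up hg (ch_mem x) (pt x) one_pos
  refine ev_pt.2 ?_
  have c : Continuous fun y => (1 + 1) * qn (rep (ch x) g (pt x)) (pt x - y) :=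
    continuous_const.mul ((qn_cont _).comp (continuous_const.sub continuous_id))
  filter_upwards [ball_mem_nhds _ hr, (c.tendsto (pt x)).eventually
    (gt_mem_nhds (a := ε) (by simpa [qn_zero] using hε))] with y a b
  have := k _ (mem_ball_self hr) y a
  rw [symm_pt] at this
  exact this.trans_lt b

/-- the Riemannian distance as a metric space structure -/
@[reducible] def rdM (hg : Met g) : MetricSpace X :=
  MetricSpace.ofDistTopology (rd g) (rd_self hg) (rd_comm g) (rd_tri hg)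
    (fun s => ⟨fun hs x hx => rd_nhds hg (hs.mem_nhds hx), fun h => isOpen_iff_mem_nhds.2
      fun x hx => by
        obtain ⟨ε, hε, k⟩ := h x hx
        exact (rd_ev hg x hε).mono k⟩)
    fun x y h => by
      by_contra k
      obtain ⟨ε, hε, k1⟩ := rd_nhds hg (compl_singleton_mem_nhds k)
      exact k1 y (h ▸ hε) rfl

omit [ConnectedSpace X] in
/-- the same manifold with another distance -/
@[reducible] def reM (m : Mf0 n X) [ConnectedSpace X] {g : Fld n X} (hg : Met g) : Mf0 n X where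
  toMetricSpace := rdM hg
  toMeasurableSpace := m.toMeasurableSpace
  toChartedSpace := m.toChartedSpace
  bor := m.bor
  sc := m.sc
  ne := m.ne
  tgt := m.tgt
  trans := m.trans

theorem mid_of (up : ∀ x : X, ∀ δ > (0 : ℝ), ∃ r > (0 : ℝ), ∀ y ∈ ball (pt x) r,
      ∀ z ∈ ball (pt x) r, dist ((ch x).symm y) ((ch x).symm z) ≤ (1 + δ) * qn (g x) (y - z))
    (key : ∀ f : X → ℝ, Continuous f → (∀ x, ∀ δ > (0 : ℝ), ∃ r > (0 : ℝ), ∀ y ∈ ball (pt x) r,
      ∀ z ∈ ball (pt x) r, f ((ch x).symm y) - f ((ch x).symm z) ≤ (1 + δ) * qn (g x) (y - z)) →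
      ∀ p q, f q - f p ≤ dist p q) : ApproxMid X := fun x y s h0 h1 ε hε => by
  classical
  have cx : Continuous fun p : X => dist x p := continuous_const.dist continuous_id
  have hS : (sphere x s).Nonempty := by
    obtain ⟨z, hz⟩ := intermediate_value_univ x y cx ⟨by simpa using h0, h1⟩
    exact ⟨z, mem_sphere'.2 hz⟩
  let f : X → ℝ := fun p => if dist x p ≤ s then dist x p else s + infDist p (sphere x s)
  have fc : Continuous f := Continuous.if_le cx (continuous_const.add (continuous_infDist_pt _)) cx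
    continuous_const fun p hp => by rw [infDist_zero_of_mem (mem_sphere'.2 hp), hp, add_zero]
  have k := key f fc (fun p δ hδ => by
    obtain ⟨r, hr, k⟩ := up p δ hδ
    refine ⟨r, hr, fun a ha b hb => ?_⟩
    have k1 := k a ha b hb
    simp only [f]
    split_ifs with c1 c2 c2
    · linarith [dist_triangle_right x ((ch p).symm a) ((ch p).symm b), dist_triangle x
        ((ch p).symm b) ((ch p).symm a), dist_comm ((ch p).symm a) ((ch p).symm b)]
    · linarith [infDist_nonneg (x := (ch p).symm b) (s := sphere x s),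
        dist_nonneg (x := (ch p).symm a) (y := (ch p).symm b)]
    · have c : Continuous fun t : ℝ => dist x ((ch p).symm (b + t • (a - b))) :=
        cx.comp ((cont_symm (ch_mem p)).comp (by fun_prop))
      obtain ⟨t, ht, e⟩ := intermediate_value_Icc zero_le_one c.continuousOn
        (show s ∈ _ from ⟨by simpa using c2, by simpa using (not_le.1 c1).le⟩)
      have m := (convex_ball _ _).add_smul_sub_mem hb ha ht
      have k2 := k a ha _ m
      have k3 := k _ m b hb
      rw [show a - (b + t • (a - b)) = (1 - t) • (a - b) by module, qn_smul,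
        abs_of_nonneg (sub_nonneg.2 ht.2)] at k2
      rw [add_sub_cancel_left, qn_smul, abs_of_nonneg ht.1] at k3
      have k4 := infDist_le_dist_of_mem (x := (ch p).symm a) (mem_sphere'.2 e)
      have e' : dist x ((ch p).symm (b + t • (a - b))) = s := e
      linarith [dist_triangle_right x ((ch p).symm (b + t • (a - b))) ((ch p).symm b)]
    · linarith [infDist_le_infDist_add_dist (s := sphere x s) (x := (ch p).symm a)
        (y := (ch p).symm b)]) x y
  rcases h1.eq_or_lt with h | h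
  · exact ⟨y, h.symm, by rw [dist_self]; linarith⟩
  · simp only [f, dist_self, if_pos h0, if_neg h.not_ge] at k
    obtain ⟨z, hz, k1⟩ := (infDist_lt_iff hS).1
      (show infDist y (sphere x s) < dist x y - s + ε by linarith)
    exact ⟨z, mem_sphere'.1 hz, by rw [dist_comm]; exact k1.le⟩

omit [ConnectedSpace X] [Mf0 n X] in
theorem riem_reM (m : Mf0 n X) [c : ConnectedSpace X] {g : Fld n X} (hg : Met g)
    (hc : @CompleteSpace X (rdM hg).toUniformSpace) : @Riem n X (reM m hg) g := by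
  have up := fun (x : X) δ (hδ : 0 < δ) => rd_up hg (ch_mem x) (pt x) hδ
  have lo := fun (x : X) δ (hδ : 0 < δ) => rd_lo hg (ch_mem x) (pt x) hδ
  have key : ∀ f : X → ℝ, Continuous f → (∀ x, ∀ δ > (0 : ℝ), ∃ r > (0 : ℝ),
      ∀ y ∈ ball (pt x) r, ∀ z ∈ ball (pt x) r,
        f ((ch x).symm y) - f ((ch x).symm z) ≤ (1 + δ) * qn (g x) (y - z)) →
      ∀ p q, f q - f p ≤ rd g p q := fun f hf H => rd_key hg hf fun x =>
    ⟨_, ch_mem x, pt x, symm_pt x, by simpa only [rep_pt] using H x⟩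
  simp only [rep_pt] at up lo
  have mid := @mid_of n X (reM m hg) g c up key
  have lc : LocallyCompactSpace X := inferInstance
  exact @Riem.mk n X (reM m hg) g (@Met.mk n X (reM m hg) g hg.sm hg.sy hg.pos)
    (@properSpace_of_complete_of_approxMid X (rdM hg) hc lc mid) mid up lo

omit [ConnectedSpace X] [Mf0 n X] in
theorem complete_of {Γ : Type} [Group Γ] [MulAction Γ X] [MetricSpace X] [LocallyCompactSpace X]
    (iso : ∀ (γ : Γ) (x y : X), dist (γ • x) (γ • y) = dist x y) {K : Set X} (hK : IsCompact K)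
    (h : ∀ x, ∃ γ : Γ, γ • x ∈ K) : CompleteSpace X := ⟨fun {F} hF => by
  obtain ⟨δ, hδ, k⟩ := hK.exists_isCompact_cthickening
  obtain ⟨t, ht, k1⟩ := (Metric.cauchy_iff.1 hF).2 δ hδ
  have := hF.1
  obtain ⟨x, hx⟩ := Filter.nonempty_of_mem ht
  obtain ⟨γ, hγ⟩ := h x
  obtain ⟨y, -, hy⟩ := (k.image (Isometry.of_dist_eq (iso γ⁻¹)).continuous).isComplete F hF
    (le_principal_iff.2 (mem_of_superset ht fun z hz => ⟨γ • z, mem_cthickening_of_dist_le _ _ _ _
      hγ (by rw [iso]; exact (k1 z hz x hx).le), inv_smul_smul γ z⟩))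
  exact ⟨y, hy⟩⟩

end Vale.Agent.P223Y
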