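import Vale.Agent.P223Y.Cv
import Vale.Agent.P223Y.Rd
import Vale.Agent.P223.X.Final

/-!
# P223Y: the manifolds `M` and `X` of a covering `Cov`
-/

open MeasureTheory Filter Topology Set WithLp
open scoped ContDiff
open Vale.Agent.P366.Stmt (E)
open Vale.Agent.P366M Vale.Agent.P223.X

noncomputable section

namespace Vale.Agent.P223Y

variable {n : ℕ} {M X Γ I : Type} [Group Γ] [MulAction Γ X]

section top

variable [TopologicalSpace M] [TopologicalSpace X] (C : Cov n M X Γ I)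

/-- the charts of `X` -/
def eX (γ : Γ) (i : I) : Ch n X :=
  chOf (fun y => γ • C.ψ i y) (Bas3.chart_emb C γ i) (fun p => C.co i (γ⁻¹ • p)) fun y => by
    rw [inv_smul_smul, co_ψ]

/-- the charts of `M` -/
def eM (i : I) : Ch n M :=
  chOf (fun y => C.π (C.ψ i y)) (Final.emb_π C i) (Function.invFun fun y => C.π (C.ψ i y))
    (Function.leftInverse_invFun (Final.emb_π C i).injective)

theorem trX (γ γ' : Γ) (i j : I) : (fun z => eX C γ' j ((eX C γ i).symm z)) =
    fun z => toLp 2 (C.tr i j (γ'⁻¹ * γ) z.ofLp) := funext fun z => by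
  rw [Cov.tr, mul_smul]
  rfl

theorem domX {γ γ' : Γ} {i j : I} {y : E n} (h : (eX C γ i).symm y ∈ (eX C γ' j).source) :
    y.ofLp ∈ C.dom i j (γ'⁻¹ * γ) := by
  obtain ⟨y', h⟩ := h
  exact (chart_eq C h.symm).1

theorem pi_smul (γ : Γ) (x : X) : C.π (γ • x) = C.π x := ((C.orb _ _).2 ⟨γ, rfl⟩).symm

theorem trM {i j : I} {y : E n} (h : (eM C i).symm y ∈ (eM C j).source) :
    ∃ γ : Γ, y.ofLp ∈ C.dom i j γ ∧ (fun z => eM C j ((eM C i).symm z)) =ᶠ[𝓝 y]
      fun z => toLp 2 (C.tr i j γ z.ofLp) := by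
  obtain ⟨y', h⟩ := h
  obtain ⟨γ, hγ⟩ := (C.orb _ _).1 h.symm
  refine ⟨γ, (mem_dom C hγ).1, ?_⟩
  filter_upwards [(cd_of (m := 0)).continuous.continuousAt.eventually
    ((isOpen_dom C i j γ).mem_nhds (mem_dom C hγ).1)] with z hz
  have h1 : (eM C i).symm z = (eM C j).symm (toLp 2 (C.tr i j γ z.ofLp)) := by
    show C.π _ = C.π (C.ψ j (C.tr i j γ z.ofLp))
    rw [tr_spec C hz, pi_smul]
  rw [h1]
  exact (eM C j).right_inv (mem_univ _)

theorem cd_tr {i j : I} {γ : Γ} {y : E n} (h : y.ofLp ∈ C.dom i j γ) :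
    ContDiffAt ℝ ∞ (fun z : E n => toLp 2 (C.tr i j γ z.ofLp)) y :=
  cd_to.contDiffAt.comp y ((contDiffAt_tr C h).comp y cd_of.contDiffAt)

/-- the index of the preferred chart -/
def sM (p : M) : I := (Final.exists_chartM C p).choose

theorem sM_spec (p : M) : p ∈ (eM C (sM C p)).source := (Final.exists_chartM C p).choose_spec

theorem exists_g (x : X) : ∃ γ : Γ, x ∈ (eX C γ (sM C (C.π x))).source := by
  obtain ⟨y, h⟩ := sM_spec C (C.π x)
  obtain ⟨γ, hγ⟩ := (C.orb _ _).1 h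
  exact ⟨γ, y, hγ⟩

/-- the sheet of a point -/
def gX (x : X) : Γ := (exists_g C x).choose

theorem gX_spec (x : X) : x ∈ (eX C (gX C x) (sM C (C.π x))).source := (exists_g C x).choose_spec

theorem sheet_eq {γ γ' : Γ} {i : I} {x : X} (h : x ∈ (eX C γ i).source)
    (h' : x ∈ (eX C γ' i).source) : γ = γ' := by
  obtain ⟨y, h⟩ := h
  obtain ⟨y', h'⟩ := h'
  have := C.inj i (γ'⁻¹ * γ) y y' (by rw [mul_smul, inv_smul_eq_iff]; exact h.trans h'.symm)
  exact (inv_mul_eq_one.1 this).symm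

theorem gX_smul (γ : Γ) (x : X) : gX C (γ • x) = γ * gX C x := by
  refine sheet_eq C (gX_spec C _) ?_
  obtain ⟨y, h⟩ := gX_spec C x
  rw [pi_smul]
  exact ⟨y, (mul_smul _ _ _).trans (congrArg _ h)⟩

/-- the atlas of `M` -/
def paM : Pa n M I where
  c := eM C
  s := sM C
  tgt _ := rfl
  src := sM_spec C
  trans _ _ _ h := by
    obtain ⟨γ, h1, h2⟩ := trM C h
    exact (cd_tr C h1).congr_of_eventuallyEq h2

/-- the atlas of `X` -/
def paX : Pa n X (Γ × I) where
  c p := eX C p.1 p.2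
  s x := (gX C x, sM C (C.π x))
  tgt _ := rfl
  src := gX_spec C
  trans _ _ _ h := by
    rw [trX]
    exact cd_tr C (domX C h)

end top

variable [Mf0 n M] [Mf0 n X] {C : Cov n M X Γ I}

/-- the manifold structures are those of the covering -/
structure Ad (C : Cov n M X Γ I) : Prop where
  mM : ∀ i, eM C i ∈ At M
  mX : ∀ γ i, eX C γ i ∈ At X
  cM : ∀ p, ch p = eM C (sM C p)
  cX : ∀ x, ch x = eX C (gX C x) (sM C (C.π x))

theorem Cm.J' {Z : Type} [Mf0 n Z] {Φ : Z → M} (h : Cm Φ) {e : Ch n Z} {e' : Ch n M}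
    (he : e ∈ At Z) (hs : ∀ y, e'.symm y = Φ (e.symm y)) (y : E n) :
    P366M.J e' y = P366M.J e y := by
  refine jac_congr ?_
  filter_upwards [ev_src he (mem_ch (e.symm y))] with z hz
  simp only [tm, hs]
  exact h.app _ hz

theorem Cm.rep' {Z : Type} [Mf0 n Z] {Φ : Z → M} (h : Cm Φ) {e : Ch n Z} {e' : Ch n M}
    (he : e ∈ At Z) (hs : ∀ y, e'.symm y = Φ (e.symm y)) (T : Fld n M) :
    P366M.rep e (fun z => T (Φ z)) = P366M.rep e' T := by
  funext y i j
  simp only [P366M.rep, h.J' he hs, hs]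

/-- the metric of `M` -/
def gM (C : Cov n M X Γ I) (G : I → Fn n → Matrix (Fin n) (Fin n) ℝ) : Fld n M :=
  fun p => G (sM C p) (pt p).ofLp

namespace Ad

variable (a : Ad C) {G : I → Fn n → Matrix (Fin n) (Fin n) ℝ}
include a

theorem cm_pi : Cm C.π := fun x y => by
  rw [a.cM, a.cX]
  exact (pi_smul C _ _).symm

theorem eqv (γ : Γ) (x : X) (y : E n) : (ch (γ • x)).symm y = γ • (ch x).symm y := by
  rw [a.cX, a.cX, gX_smul, pi_smul]
  exact mul_smul _ _ _

theorem eqv' (γ : Γ) (x p : X) : ch (γ • x) (γ • p) = ch x p := by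
  rw [a.cX, a.cX, gX_smul, pi_smul]
  show toLp 2 (C.co _ ((γ * _)⁻¹ • γ • p)) = _
  rw [mul_inv_rev, mul_smul, inv_smul_smul]
  rfl

omit a in
theorem ori' {γ γ' : Γ} {i j : I} {y : E n} (h : (eX C γ i).symm y ∈ (eX C γ' j).source) :
    0 < (jac (tm (eX C γ i) (eX C γ' j)) y).det := by
  rw [show tm (eX C γ i) (eX C γ' j) = _ from trX C γ γ' i j,
    det_of ((contDiffAt_tr C (domX C h)).differentiableAt (by simp))]
  exact det_tr_pos C (domX C h)

theorem ori (x x' : X) (y : E n) (h : (ch x).symm y ∈ (ch x').source) :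
    0 < (jac (tm (ch x) (ch x')) y).det := by
  rw [a.cX x, a.cX x'] at h ⊢
  exact ori' h

theorem J_pos (γ : Γ) (i : I) (y : E n) : 0 < (J (eX C γ i) y).det := by
  have h := mem_ch ((eX C γ i).symm y)
  unfold J
  rw [a.cX] at h ⊢
  exact ori' h

theorem rep_gM (hG : MetX C G) (i : I) : rep (eM C i) (gM C G) = fun y => G i y.ofLp := by
  funext y k l
  have h := mem_ch ((eM C i).symm y)
  have e : pt ((eM C i).symm y) = tm (eM C i) (ch ((eM C i).symm y)) y := rfl
  unfold rep J gM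
  rw [e]
  rw [a.cM] at h ⊢
  obtain ⟨γ, h1, h2⟩ := trM C h
  have h3 := hG.inv _ _ γ _ h1 (Pi.single k 1) (Pi.single l 1)
  rw [jac_congr (τ := tm _ _) h2, show tm _ _ y = _ from h2.self_of_nhds]
  simp only [jac_of ((contDiffAt_tr C h1).differentiableAt (by simp))]
  rw [h3]
  simp [Pi.single_apply]

theorem met_gM (hG : MetX C G) : Met (gM C G) where
  sm := smT_of fun p => ⟨_, a.mM _, sM_spec C p, fun i j => by
    rw [a.rep_gM hG]
    exact ((hG.smooth _ i j).comp cd_of).contDiffAt⟩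
  sy _ := P210B.sy_of (hG.pos _ _)
  pos _ := hG.pos _ _

theorem scal_gM (hG : MetX C G) (p : M) : scal (gM C G) p = scM C G p := by
  have h : C.π (C.ψ (sM C p) (pt p).ofLp) = p := by
    have := symm_pt p
    rwa [a.cM] at this
  rw [scal, a.cM, a.rep_gM hG, scal_of (hG.smooth _) (hG.pos _), ← Final.scM_eq hG, h]

theorem vol_gM (hG : MetX C G) {ν : Measure M} (hν : VolM C G ν) : vol (gM C G) = ν := by
  ext s hs
  rw [← inter_univ s, ← union_pc, inter_iUnion]
  have d : Pairwise (Function.onFun Disjoint fun k => s ∩ pc M k) := fun _ _ h =>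
    (disjoint_disjointed _ h).mono inter_subset_right inter_subset_right
  rw [measure_iUnion d fun k => hs.inter (meas_pc k), measure_iUnion d fun k => hs.inter (meas_pc k)]
  refine tsum_congr fun k => ?_
  have h1 : s ∩ pc M k ⊆ (eM C (sM C (cv M k))).source := fun p hp => a.cM _ ▸ pc_sub k hp.2
  have he := a.mM (sM C (cv M k))
  have hm := hs.inter (meas_pc (M := M) k)
  generalize s ∩ pc M k = t at h1 hm
  generalize sM C (cv M k) = i at h1 he
  have m1 : MeasurableSet ((fun y => C.π (C.ψ i y)) ⁻¹' t) :=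
    (Final.emb_π C i).continuous.measurable hm
  have h2 := hν i _ m1
  rw [image_preimage_eq_of_subset h1] at h2
  have h3 := vol_image (a.met_gM hG) he ((measEmb_symm he).measurable hm)
  rw [image_preimage_eq_of_subset (by rwa [range_symm he]), a.rep_gM hG] at h3
  rw [h2, h3, ← (PiLp.volume_preserving_ofLp (Fin n)).setLIntegral_comp_preimage_emb me_of]
  rfl

theorem smooth_iff {f : X → ℝ} : Smooth f ↔ C.Ck ∞ f :=
  ⟨fun h γ i => (h _ (a.mX γ i)).comp cd_to, fun h => cd_of_cAt le_rfl fun x => by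
    rw [CAt, a.cX]
    exact ((h _ _).comp cd_of).contDiffAt⟩

end Ad

end Vale.Agent.P223Y
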