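import Vale.Agent.P223B.Sg
import Vale.Agent.P223A.Bas
import Vale.Agent.P210R.Defs
import Vale.Agent.P210S.Pot

/-!
# P223Y: distributions over the colours; the first one; the unit family of a distribution
-/

open Filter Topology Set
open scoped ContDiff
open Vale.Agent.P366M Vale.Agent.P210G
open Vale.Agent.P223F Vale.Agent.P223A Vale.Agent.P223B
open Vale.Agent.P210R (Dis En fi)
open Vale.Agent.P366H (DD DD_ge)
open Finset (range)

noncomputable section

namespace Vale.Agent.P223Y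

variable {n : ℕ} {X : Type} [Mf0 n X] {Γ : Type} [Group Γ] [MulAction Γ X] {F : Fr Γ}
  {K₀ D : Set X} {c : F.Ω → ℕ} {m : ℕ} {g₀ : Fld n X} {χ : X → ℝ}

/-- invariant continuous functions of finite range are bounded -/
theorem bdd_rn (hχ : Wt Γ χ) {u : F.Ω → X → ℝ} (h : Rn F u) (cu : ∀ o, Continuous (u o)) :
    ∃ B ≥ (0 : ℝ), ∀ o x, u o x ≤ B := by
  obtain ⟨B, B0, hB⟩ := ((eventually_ge_atTop 0).and (h.tr.unif hχ.cs.isCompact (l := atTop)
    (P := fun o B => ∀ x ∈ tsupport χ, u o x ≤ B) (fun o o' B e k x q => e x q ▸ k x q) fun o => by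
      obtain ⟨B, hB⟩ := hχ.cs.isCompact.bddAbove_image (cu o).continuousOn
      exact (eventually_ge_atTop B).mono fun B' k x q => (hB ⟨x, q, rfl⟩).trans k)).exists
  refine ⟨B, B0, fun o x => ?_⟩
  by_contra k
  have := hχ.sum x
  rw [finsum_eq_zero_of_forall_eq_zero (f := fun γ : Γ => tl γ χ x) fun γ =>
    image_eq_zero_of_notMem_tsupport (f := χ) fun q => k (h.inv γ⁻¹ o x ▸ hB _ _ q)] at this
  exact zero_ne_one this

/-- sums over the labels are sums over the colours -/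
theorem Sg_col (d : Deck X Γ) (hK : IsCompact K₀) (hs : ∀ j, Sep Γ {o | c o = j} K₀)
    (cm : ∀ o, c o < m) {u : ℕ → F.Ω → X → ℝ} (iu : ∀ j, Inv Γ (u j))
    (su : ∀ j o x, u j o x ≠ 0 → x ∈ Un Γ {o | c o = j} K₀ o) (o : F.Ω) (x : X) :
    Sg (fun o => K₀.indicator (u (c o) o)) o x = ∑ j ∈ range m, u j o x := by
  classical
  obtain ⟨T, hT⟩ := vis d hK x
  rw [Sg_eq (K := K₀) (fun _ _ k => indicator_of_notMem k _) hT,
    ← Finset.sum_fiberwise_of_maps_to (g := fun γ : Γ => c (γ⁻¹ • o)) (t := range m)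
      fun γ _ => Finset.mem_range.2 (cm _)]
  refine Finset.sum_congr rfl fun j _ => ?_
  have e : ∀ γ : Γ, c (γ⁻¹ • o) = j → lb γ (fun o => K₀.indicator (u (c o) o)) o x =
      if γ⁻¹ • x ∈ K₀ then u j o x else 0 := fun γ k => by
    simp only [lb, indicator, k, iu j γ⁻¹ o x]
  rw [Finset.sum_congr rfl fun γ k => e γ (Finset.mem_filter.1 k).2]
  by_cases q : u j o x = 0
  · simp [q]
  obtain ⟨γ, a, b⟩ := su j o x q
  exact (Finset.sum_eq_single_of_mem γ (Finset.mem_filter.2 ⟨hT γ b, a⟩) fun γ' k ne =>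
    if_neg fun t => ne ((hs j).eq (Finset.mem_filter.1 k).2 t a b)).trans (if_pos b)

theorem rn_ip (d : Deck X Γ) {g : F.Ω → Fld n X} {u : F.Ω → X → ℝ} (rg : Rn F g) (h : Rn F u) :
    Rn F fun o => ip (g o) (u o) (u o) :=
  ⟨tr_ip rg.tr h.tr, fun γ o x => by simpa only [inv_inv, h.inv.lb] using lb_ip d rg.inv γ⁻¹ u o x⟩

theorem fi_sq {g : Fld n X} (hg : Met g) {y : X → ℝ} (hy : Smooth y) (x : X) :
    fi g (fun z => y z ^ 2) x ≤ ip g y y x := by
  have h := hg.ip_nonneg y x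
  refine div_le_of_le_mul₀ (by positivity) h (le_of_eq ?_)
  rw [ip_comp (φ := fun t => t ^ 2) (ψ := fun t => t ^ 2) (hasDerivAt_pow 2 _) (hasDerivAt_pow 2 _)
    (hy.diff x) (hy.diff x)]
  norm_num
  ring

theorem rs_nrm {z : ℕ → F.Ω → X → ℝ} (hz : ∀ j, Rs F (z j))
    (h0 : ∀ o x, 0 < ∑ k : Fin m, z k o x ^ 2) (j : ℕ) :
    Rs F fun o x => z j o x * (√(∑ k : Fin m, z k o x ^ 2))⁻¹ :=
  ⟨(hz j).toRn.map₂ (rn_pi fun k : Fin m => (hz k).toRn) fun a b => a * (√(∑ k, b k ^ 2))⁻¹,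
    fun o => CD.mul ((hz j).sm o) (CD.inv (CD.sqrt (CD.sum fun k _ => CD.pow ((hz k).sm o) 2)
      fun x => (h0 o x).ne') fun x => (Real.sqrt_pos.2 (h0 o x)).ne')⟩

theorem sum_nrm {a : ℕ → ℝ} (h0 : 0 < ∑ k : Fin m, a k ^ 2) :
    ∑ j ∈ range m, (a j * (√(∑ k : Fin m, a k ^ 2))⁻¹) ^ 2 = 1 := by
  simp only [mul_pow, inv_pow, Real.sq_sqrt h0.le, ← Finset.sum_mul]
  rw [Finset.sum_range, mul_inv_cancel₀ h0.ne']

/-- **the first distribution** -/
theorem first (G : Geo Γ g₀ χ) (lc : IsLocallyConstant c) (cm : ∀ o, c o < m) :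
    ∃ (K : ℕ → F.Ω → X → ℝ) (E : ℝ), 0 ≤ E ∧ (∀ j, Rs F (K j)) ∧ (∀ o, Dis (fun j => K j o) m) ∧
      (∀ j o x, K j o x ≠ 0 → x ∈ Un Γ {o | c o = j} (tsupport χ) o) ∧
      ∀ o x, En g₀ (fun j => K j o) m x ≤ E := by
  classical
  have d := G.deck
  have hK := G.wt.cs.isCompact
  have cs : ∀ j, Cs (fun o x => if c o = j then χ x else 0) (tsupport χ) := fun j o x k => by
    simp [image_eq_zero_of_notMem_tsupport k]
  obtain ⟨z, hz⟩ : ∃ z : ℕ → F.Ω → X → ℝ, z = fun j => Sg fun o x => if c o = j then χ x else 0 :=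
    ⟨_, rfl⟩
  have rz : ∀ j, Rs F (z j) := fun j => by
    have t := tr_lc lc fun i x => if i = j then χ x else 0
    rw [hz]
    refine ⟨⟨tr_Sg d t hK (cs j), inv_Sg _⟩, sm_Sg d t hK (cs j) fun o => ?_⟩
    by_cases q : c o = j
    · simp only [if_pos q]; exact G.wt.sm
    · simp only [if_neg q]; exact cd_const
  have z0 : ∀ o x, 0 < ∑ k : Fin m, z k o x ^ 2 := fun o x => by
    refine (Finset.sum_nonneg fun _ _ => sq_nonneg _).lt_of_ne' fun q => ?_
    rw [Finset.sum_eq_zero_iff_of_nonneg fun _ _ => sq_nonneg _] at q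
    have := G.wt.sum x
    rw [finsum_eq_zero_of_forall_eq_zero fun γ => ?_] at this
    · exact zero_ne_one this
    obtain ⟨T, hT⟩ := vis d hK x
    have e := pow_eq_zero_iff two_ne_zero |>.1 (q ⟨c (γ⁻¹ • o), cm _⟩ (Finset.mem_univ _))
    simp only [hz, Sg_eq (cs _) hT] at e
    by_contra k
    have := (Finset.sum_eq_zero_iff_of_nonneg fun γ _ => ?_).1 e γ
      (hT γ (subset_tsupport _ k))
    · exact k (by simpa [lb, tl] using this)
    · simp only [lb]
      split_ifs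
      exacts [G.wt.nn _, le_rfl]
  have ry := rs_nrm rz z0
  obtain ⟨E, E0, hE⟩ := bdd_rn (F := F) G.wt (u := fun o x => ∑ j : Fin m, ip g₀
      (fun x => z j o x * (√(∑ k : Fin m, z k o x ^ 2))⁻¹)
      (fun x => z j o x * (√(∑ k : Fin m, z k o x ^ 2))⁻¹) x)
    ((rn_pi fun j : Fin m => rn_ip d (rn_const G.inv) (ry j).toRn).map fun a => ∑ j, a j)
    fun o => continuous_finsetSum _ fun j _ => (G.riem.met.sm_ip ((ry j).sm o) ((ry j).sm o)).cont
  refine ⟨fun j o x => (z j o x * (√(∑ k : Fin m, z k o x ^ 2))⁻¹) ^ 2, E, E0,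
    fun j => ⟨(ry j).toRn.map fun a => a ^ 2, fun o => CD.pow ((ry j).sm o) 2⟩,
    fun o => ⟨fun j => CD.pow ((ry j).sm o) 2, fun j x => sq_nonneg _,
      fun x => sum_nrm (a := fun j => z j o x) (z0 o x)⟩, fun j o x k => by_contra fun q => k ?_,
    fun o x => le_trans ?_ (hE o x)⟩
  · have : z j o x = 0 := hz ▸ Sg_off (cs j) (fun o (k : ¬c o = j) x => if_neg k) q
    simp [this]
  · rw [En, Finset.sum_range]
    exact Finset.sum_le_sum fun j _ => fi_sq G.riem.met ((ry j).sm o) x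

/-- a smooth substitute of the square root -/
theorem exists_rt {d : ℝ} (d0 : 0 < d) : ∃ ζ : ℝ → ℝ, ContDiff ℝ ∞ ζ ∧ ζ 0 = 0 ∧
    (∀ t ≥ 0, t ≤ ζ t ^ 2 + 4 * d ^ 2) ∧
      ∀ t ≥ 0, ∃ a, HasDerivAt ζ a t ∧ a * a ≤ 9 * DD ^ 2 / (4 * t) := by
  obtain ⟨ζ, s, z0, z1, z2⟩ := P210A.zeta d0
  have e : ∀ t ≤ 0, (fun t => ζ √t) =ᶠ[𝓝 t] fun _ => 0 := fun t k =>
    (gt_mem_nhds (k.trans_lt (pow_pos d0 2))).mono fun u (q : u < d ^ 2) =>
      z0 _ (Real.sqrt_le_iff.2 ⟨d0.le, q.le⟩)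
  refine ⟨fun t => ζ √t, contDiff_iff_contDiffAt.2 fun t => ?_, (e 0 le_rfl).self_of_nhds,
    fun t k => ?_, fun t k => ?_⟩
  · rcases le_or_gt t 0 with k | k
    · exact contDiffAt_const.congr_of_eventuallyEq (e t k)
    · exact s.contDiffAt.comp t (Real.contDiffAt_sqrt k.ne')
  · rcases k.eq_or_lt with rfl | k
    · positivity
    · simpa only [Real.sq_sqrt k.le] using z1 _ (Real.sqrt_pos.2 k)
  · rcases k.eq_or_lt with rfl | k
    · exact ⟨0, (hasDerivAt_const _ _).congr_of_eventuallyEq (e 0 le_rfl), by simp⟩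
    obtain ⟨a, a1, a2⟩ := z2 √t
    refine ⟨_, a1.comp t (Real.hasDerivAt_sqrt k.ne'), ?_⟩
    rw [mul_mul_mul_comm, one_div_mul_one_div, mul_mul_mul_comm, Real.mul_self_sqrt k.le,
      mul_one_div]
    exact div_le_div₀ (by positivity) a2 (by positivity) (by norm_num)

/-- **the unit family of a distribution** -/
theorem unit_of (d : Deck X Γ) (hK : IsCompact K₀) (KD : K₀ ⊆ interior D)
    (lc : IsLocallyConstant c) (hs : ∀ j, Sep Γ {o | c o = j} D) (cm : ∀ o, c o < m)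
    {g : F.Ω → Fld n X} (rg : Rn F g) (mg : ∀ o, Met (g o)) {K : ℕ → F.Ω → X → ℝ}
    (rK : ∀ j, Rn F (K j)) (dK : ∀ o, Dis (fun j => K j o) m)
    (sK : ∀ j o x, K j o x ≠ 0 → x ∈ Un Γ {o | c o = j} K₀ o) : ∃ b : F.Ω → X → ℝ, Uf b K₀ ∧
      ∀ o x, Eg g b o x ≤ 18 * DD ^ 2 * En (g o) (fun j => K j o) m x := by
  have sb := KD.trans interior_subset
  have hs' : ∀ j, Sep Γ {o | c o = j} K₀ := fun j => (hs j).mono subset_rfl sb
  obtain ⟨ζ, sζ, ζ0, ζ1, ζ2⟩ := exists_rt (d := 1 / (4 * (m + 1))) (by positivity)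
  have rz : ∀ j, Rs F fun o x => ζ (K j o x) := fun j =>
    ⟨(rK j).map ζ, fun o => sζ.compM ((dK o).sm j)⟩
  have z1 : ∀ o x, 1 / 2 ≤ ∑ k : Fin m, ζ (K k o x) ^ 2 := fun o x => by
    have h := Finset.sum_le_sum fun j (_ : j ∈ range m) => ζ1 _ ((dK o).nn j x)
    rw [(dK o).one, Finset.sum_add_distrib, Finset.sum_range, Finset.sum_const, Finset.card_range,
      nsmul_eq_mul] at h
    have : (m : ℝ) * (4 * (1 / (4 * (m + 1))) ^ 2) ≤ 1 / 2 := by
      rw [div_pow, one_pow, mul_one_div, ← mul_div_assoc, div_le_div_iff₀ (by positivity) two_pos]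
      nlinarith [(Nat.cast_nonneg m : (0 : ℝ) ≤ m)]
    linarith
  have z0 : ∀ o x, 0 < ∑ k : Fin m, ζ (K k o x) ^ 2 := fun o x => by linarith [z1 o x]
  have ry := rs_nrm (z := fun j o x => ζ (K j o x)) rz z0
  obtain ⟨y, hy⟩ : ∃ y : ℕ → F.Ω → X → ℝ,
      y = fun j o x => ζ (K j o x) * (√(∑ k : Fin m, ζ (K k o x) ^ 2))⁻¹ := ⟨_, rfl⟩
  replace ry : ∀ j, Rs F (y j) := hy ▸ ry
  have sy : ∀ j o x, y j o x ≠ 0 → x ∈ Un Γ {o | c o = j} K₀ o := fun j o x k =>
    sK j o x fun q => k (by simp [hy, q, ζ0])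
  have cs : Cs (fun o => K₀.indicator (y (c o) o)) K₀ := fun _ _ k => indicator_of_notMem k _
  have ge : ∀ o, ∀ x ∈ K₀, K₀.indicator (y (c o) o) =ᶠ[𝓝 x] y (c o) o := fun o x k =>
    mem_of_superset (mem_interior_iff_mem_nhds.1 (KD k)) fun z q =>
      indicator_apply_eq_self.2 fun t => by_contra fun u => by
        obtain ⟨γ, a, b⟩ := sy _ o z u
        rw [(hs _).eq a (sb b) (δ := 1) (by simp) (by simpa using q)] at b
        exact t (by simpa using b)
  refine ⟨fun o => K₀.indicator (y (c o) o), ⟨fun o x => ?_, fun o => cd_of_cAt le_rfl fun x => ?_,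
    cs, fun o x => ?_⟩, fun o x => ?_⟩
  · filter_upwards [(lc.eventually_eq o).prod_inl _, (ry (c o)).tr o x] with p a b
    simp only [indicator, a, b]
  · by_cases q : x ∈ K₀
    · exact (CD.contDiffAt ((ry _).sm o)).congr_of_eventuallyEq (ge o x q)
    · exact cAt_const.congr_of_eventuallyEq (cs_ev hK cs o q)
  · refine Eq.trans ?_ ((Sg_col d hK hs' cm (u := fun j o x => y j o x ^ 2)
      (fun j => ((ry j).toRn.map fun a => a ^ 2).inv) (fun j o x k => sy j o x fun q => k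
        (by simp [q])) o x).trans (hy ▸ sum_nrm (a := fun j => ζ (K j o x)) (z0 o x)))
    congr 1
    funext o x
    by_cases q : x ∈ K₀ <;> simp [q]
  have e : Eg g (fun o => K₀.indicator (y (c o) o)) o x =
      ∑ j ∈ range m, ip (g o) (y j o) (y j o) x := by
    rw [← Sg_col d hK hs' cm (u := fun j o => ip (g o) (y j o) (y j o))
      (fun j => (rn_ip d rg (ry j).toRn).inv) (fun j o x k => by_contra fun q => k ?_) o x, Eg]
    · congr 1
      funext o x
      by_cases q : x ∈ K₀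
      · rw [indicator_of_mem q, ip_congr (ge o x q) (ge o x q)]
      · exact (cs_ip hK cs g o x q).trans (indicator_of_notMem q _).symm
    · have : y j o =ᶠ[𝓝 x] fun _ => 0 := mem_of_superset ((isClosed_un d (lc.isClopen_fiber j).isClosed
        hK o).isOpen_compl.mem_nhds q) fun z t => by_contra fun u => t (sy j o z u)
      rw [ip_congr this this, ip_const_left]
  have h1 := P210A.En_norm (mg o) (y := fun (j : Fin m) x => ζ (K j o x)) (x := x)
    (fun j => ((rz j).sm o).diff x) (z0 o x)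
  have h2 : P210S.En (g o) (fun (j : Fin m) x => ζ (K j o x)) x ≤
      9 * DD ^ 2 * En (g o) (fun j => K j o) m x := by
    rw [En, Finset.sum_range, Finset.mul_sum]
    refine Finset.sum_le_sum fun j _ => ?_
    obtain ⟨a, a1, a2⟩ := ζ2 _ ((dK o).nn j x)
    rw [ip_comp a1 a1 (((dK o).sm j).diff x) (((dK o).sm j).diff x), fi, ← mul_div_assoc,
      mul_div_right_comm]
    exact mul_le_mul_of_nonneg_right a2 ((mg o).ip_nonneg _ x)
  rw [e, Finset.sum_range, hy]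
  refine h1.trans (div_le_of_le_mul₀ (z0 o x).le ?_ ?_) <;>
    nlinarith [P210S.En_nonneg (mg o) (fun (j : Fin m) x => ζ (K j o x)) x, z1 o x]

end Vale.Agent.P223Y
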